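import Vale.Agent.P338.R3.H282.Step

/-!
P338-D, module COUNT (1): the numbers of steps of the schedule.

`nz` zeta steps, `nj` positions of the zeta steps, `nd` diagonals, `nl` digits in the local
diagonals.
-/

namespace Vale.Agent.P338.R3.H121

open Vale.Agent.P338.R3.H282

variable {δ : Type}

/-- Number of zeta steps. -/
def nz : St δ → ℕ
  | .dn _ => 1
  | .up _ => 1
  | .dg _ => 0

/-- Number of bit positions of zeta steps. -/
def nj : St δ → ℕ
  | .dn J => J.length
  | .up J => J.length
  | .dg _ => 0

/-- Number of diagonals. -/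
def nd : St δ → ℕ
  | .dg _ => 1
  | _ => 0

/-- Number of digits in local diagonals. -/
def nl : St δ → ℕ
  | .dg (.loc J _) => J.length
  | _ => 0

/-- Number of corrections. -/
def nc : St δ → ℕ
  | .dg .corr => 1
  | _ => 0

/-- Total of a weight over a list of steps. -/
def tot (v : St δ → ℕ) (l : List (St δ)) : ℕ := (l.map v).sum

@[simp] theorem tot_nil (v : St δ → ℕ) : tot v [] = 0 := rfl

@[simp] theorem tot_cons (v : St δ → ℕ) (x : St δ) (l : List (St δ)) :
    tot v (x :: l) = v x + tot v l := by
  simp [tot]

@[simp] theorem tot_append (v : St δ → ℕ) (l l' : List (St δ)) :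
    tot v (l ++ l') = tot v l + tot v l' := by
  simp [tot]

theorem tot_flatMap {ι : Type*} (v : St δ → ℕ) (l : List ι) (f : ι → List (St δ)) :
    tot v (l.flatMap f) = (l.map fun i => tot v (f i)).sum := by
  induction l with
  | nil => rfl
  | cons x l ih => simp [ih]

/-- A weight bounded step by step. -/
theorem tot_le {v : St δ → ℕ} {A B D B' F : ℕ} (h1 : ∀ J, v (.dn J) ≤ A + B * J.length)
    (h2 : ∀ J, v (.up J) ≤ A + B * J.length)
    (h3 : ∀ J c, v (.dg (.loc J c)) ≤ D + B' * J.length)
    (h4 : ∀ b p, v (.dg (.shA b p)) ≤ D) (h5 : ∀ b p, v (.dg (.shB b p)) ≤ D)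
    (h6 : ∀ i, v (.dg (.hd i)) ≤ D) (h7 : ∀ b i, v (.dg (.tw b i)) ≤ D)
    (h8 : v (.dg .corr) ≤ D + F) (l : List (St δ)) :
    tot v l ≤ A * tot nz l + B * tot nj l + D * tot nd l + B' * tot nl l + F * tot nc l := by
  induction l with
  | nil => simp
  | cons x l ih =>
    simp only [tot_cons, Nat.mul_add]
    have key : v x ≤ A * nz x + B * nj x + D * nd x + B' * nl x + F * nc x := by
      rcases x with J | J | c
      · simpa [nz, nj, nd, nl, nc] using h1 J
      · simpa [nz, nj, nd, nl, nc] using h2 J
      · rcases c with ⟨J, c⟩ | ⟨b, p⟩ | ⟨b, p⟩ | i | ⟨b, i⟩ | _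
        · simpa [nz, nj, nd, nl, nc] using h3 J c
        · simpa [nz, nj, nd, nl, nc] using h4 b p
        · simpa [nz, nj, nd, nl, nc] using h5 b p
        · simpa [nz, nj, nd, nl, nc] using h6 i
        · simpa [nz, nj, nd, nl, nc] using h7 b i
        · simpa [nz, nj, nd, nl, nc] using h8
    omega

/-! ### the local programs -/

section
variable (G : Geo) (prog : List (Ly δ))

theorem nz_W (J : List ℕ) : tot nz (G.W prog J) ≤ prog.length := by
  unfold Geo.W
  induction prog with
  | nil => simp
  | cons x l ih =>
    rw [List.map_cons, tot_cons, List.length_cons]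
    have : nz (G.lk J x) ≤ 1 := by cases x <;> simp [nz, Geo.lk]
    omega

theorem nd_W (J : List ℕ) : tot nd (G.W prog J) ≤ prog.length := by
  unfold Geo.W
  induction prog with
  | nil => simp
  | cons x l ih =>
    rw [List.map_cons, tot_cons, List.length_cons]
    have : nd (G.lk J x) ≤ 1 := by cases x <;> simp [nd, Geo.lk]
    omega

theorem nc_W (J : List ℕ) : tot nc (G.W prog J) = 0 := by
  unfold Geo.W
  induction prog with
  | nil => simp
  | cons x l ih =>
    rw [List.map_cons, tot_cons, ih]
    cases x <;> simp [nc, Geo.lk]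

theorem nj_W (J : List ℕ) : tot nj (G.W prog J) ≤ prog.length * J.length := by
  unfold Geo.W
  induction prog with
  | nil => simp
  | cons x l ih =>
    rw [List.map_cons, tot_cons, List.length_cons, Nat.succ_mul]
    have : nj (G.lk J x) ≤ J.length := by cases x <;> simp [nj, Geo.lk]
    omega

theorem nl_W (J : List ℕ) : tot nl (G.W prog J) ≤ prog.length * J.length := by
  unfold Geo.W
  induction prog with
  | nil => simp
  | cons x l ih =>
    rw [List.map_cons, tot_cons, List.length_cons, Nat.succ_mul]
    have : nl (G.lk J x) ≤ J.length := by cases x <;> simp [nl, Geo.lk]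
    omega

end

/-! ### the groups -/

/-- Disjoint classes. -/
theorem sum_filter_le {ps : List ℕ} (hp : ps.Nodup) (f : ℕ → ℕ) (L : List ℕ) :
    (ps.map fun p => (L.filter fun i => f i = p).length).sum ≤ L.length := by
  induction L with
  | nil => simp
  | cons x L ih =>
    have h1 : (ps.map fun p => ((x :: L).filter fun i => f i = p).length).sum =
        (ps.map fun p => if f x = p then 1 else 0).sum +
        (ps.map fun p => (L.filter fun i => f i = p).length).sum := by
      rw [← List.sum_map_add]
      congr 1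
      refine List.map_congr_left fun p _ => ?_
      by_cases h : f x = p
      · simp [h, Nat.add_comm]
      · simp [h]
    have h2 : (ps.map fun p => if f x = p then 1 else 0).sum ≤ 1 := by
      have h3 : (ps.map fun p => if f x = p then 1 else 0).sum = ps.count (f x) := by
        clear h1 ih hp
        induction ps with
        | nil => simp
        | cons q ps ih =>
          rw [List.map_cons, List.sum_cons, ih, List.count_cons]
          by_cases h : f x = q
          · simp [h, Nat.add_comm]
          · have h' : ¬ q = f x := fun h' => h h'.symm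
            simp [h, h']
      rw [h3]
      exact List.nodup_iff_count_le_one.1 hp _
    rw [h1, List.length_cons]
    omega

variable (G : Geo) (prog : List (Ly δ))

theorem sum_posJ_le {ps : List ℕ} (hp : ps.Nodup) :
    (ps.map fun p => (G.posJ p).length).sum ≤ G.d := by
  have := sum_filter_le hp (fun i => i % G.gs) (List.range G.d)
  simpa [Geo.posJ] using this

theorem sum_grpJ_le {ps : List ℕ} (hp : ps.Nodup) :
    (ps.map fun p => (G.grpJ p).length).sum ≤ G.d := by
  have := sum_filter_le hp (fun i => i / G.gs) (List.range G.d)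
  simpa [Geo.grpJ] using this

/-- Sum of affine bounds. -/
theorem sum_aff {ι : Type*} (l : List ι) (f g : ι → ℕ) {A B : ℕ}
    (h : ∀ i ∈ l, f i ≤ A + B * g i) :
    (l.map f).sum ≤ A * l.length + B * (l.map g).sum := by
  induction l with
  | nil => simp
  | cons x l ih =>
    have h1 := h x (by simp)
    have h2 := ih fun i hi => h i (by simp [hi])
    simp only [List.map_cons, List.sum_cons, List.length_cons, Nat.mul_add, Nat.mul_one]
    omega

/-- A weight of the local programs: totals over a list of groups. -/
theorem tot_stages {v : St δ → ℕ} {A B D : ℕ} (hW : ∀ J, tot v (G.W prog J) ≤ A + B * J.length)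
    {st : ℕ → List (St δ)} {Jf : ℕ → List ℕ} {dgl : ℕ → DC δ}
    (hst : ∀ p, st p = G.W prog (Jf p) ++ (.dg (dgl p)) :: G.W prog (Jf p))
    (hd : ∀ p, v (.dg (dgl p)) ≤ D) {ps : List ℕ} {Q : ℕ}
    (hQ : (ps.map fun p => (Jf p).length).sum ≤ Q) :
    tot v (ps.flatMap st) ≤ (2 * A + D) * ps.length + 2 * B * Q := by
  rw [tot_flatMap]
  refine (sum_aff ps (fun i => tot v (st i)) (fun p => (Jf p).length) (A := 2 * A + D)
    (B := 2 * B) fun p _ => ?_).trans ?_
  · rw [hst p, tot_append, tot_cons]
    have h1 := hW (Jf p)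
    have h2 := hd p
    rw [Nat.mul_assoc]
    omega
  · have := Nat.mul_le_mul_left (2 * B) hQ
    omega

/-- Both schedules. -/
theorem tot_fwd {v : St δ → ℕ} {A B D S : ℕ} (hW : ∀ J, tot v (G.W prog J) ≤ A + B * J.length)
    (hA : ∀ p, v (.dg (.shA false p)) ≤ D) (hB : ∀ p, v (.dg (.shB false p)) ≤ D)
    (hS : ∀ i, tot v (G.selF i) ≤ S) :
    tot v (G.fwd prog) ≤ S * G.s + (2 * A + D) * (G.gs - 1 + G.t) + A + 5 * B * G.d := by
  unfold Geo.fwd
  rw [tot_append, tot_append, tot_append]
  have h1 : tot v ((List.range G.s).reverse.flatMap G.selF) ≤ S * G.s := by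
    rw [tot_flatMap]
    refine (sum_aff _ (fun i => tot v (G.selF i)) (fun _ => 0) (A := S) (B := 0)
      fun i _ => by simpa using hS i).trans ?_
    simp
  have h2 := tot_stages G prog (st := G.stA prog false) (Jf := G.posJ)
    (dgl := fun p => .shA false p) hW (fun p => rfl) (D := D) hA
    (ps := (List.range' 1 (G.gs - 1)).reverse) (Q := G.d)
    (sum_posJ_le G (List.nodup_reverse.2 (List.nodup_range' (step := 1))))
  have h3 := tot_stages G prog (st := G.stB prog false) (Jf := G.grpJ)
    (dgl := fun p => .shB false p) hW (fun p => rfl) (D := D) hB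
    (ps := (List.range' 1 G.t).reverse) (Q := G.d)
    (sum_grpJ_le G (List.nodup_reverse.2 (List.nodup_range' (step := 1))))
  have h4 := hW (List.range G.d)
  simp only [List.length_reverse, List.length_range', List.length_range] at h2 h3 h4
  nlinarith

theorem tot_bwd {v : St δ → ℕ} {A B D S C : ℕ} (hW : ∀ J, tot v (G.W prog J) ≤ A + B * J.length)
    (hA : ∀ p, v (.dg (.shA true p)) ≤ D) (hB : ∀ p, v (.dg (.shB true p)) ≤ D)
    (hS : ∀ i, tot v (G.selI i) ≤ S) (hC : v (.dg .corr) ≤ C) :
    tot v (G.bwd prog) ≤ C + S * G.s + (2 * A + D) * (G.gs - 1 + G.t) + A + 5 * B * G.d := by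
  unfold Geo.bwd
  rw [tot_cons, tot_append, tot_append, tot_append]
  have h1 : tot v ((List.range G.s).flatMap G.selI) ≤ S * G.s := by
    rw [tot_flatMap]
    refine (sum_aff _ (fun i => tot v (G.selI i)) (fun _ => 0) (A := S) (B := 0)
      fun i _ => by simpa using hS i).trans ?_
    simp
  have h2 := tot_stages G prog (st := G.stA prog true) (Jf := G.posJ)
    (dgl := fun p => .shA true p) hW (fun p => rfl) (D := D) hA
    (ps := (List.range' 1 (G.gs - 1))) (Q := G.d)
    (sum_posJ_le G (List.nodup_range' (step := 1)))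
  have h3 := tot_stages G prog (st := G.stB prog true) (Jf := G.grpJ)
    (dgl := fun p => .shB true p) hW (fun p => rfl) (D := D) hB
    (ps := (List.range' 1 G.t)) (Q := G.d)
    (sum_grpJ_le G (List.nodup_range' (step := 1)))
  have h4 := hW (List.range G.d)
  simp only [List.length_range', List.length_range] at h2 h3 h4
  nlinarith

/-! ### the counts -/

/-- Number of the shear stages plus one. -/
def nS : ℕ := 2 * (G.gs - 1 + G.t) + 1

theorem nz_fwd : tot nz (G.fwd prog) ≤ 2 * G.s + prog.length * nS G := by
  have := tot_fwd G prog (v := nz) (A := prog.length) (B := 0) (D := 0) (S := 2)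
    (fun J => by simpa using nz_W G prog J) (fun p => le_rfl) (fun p => le_rfl)
    (fun i => by simp [Geo.selF, nz])
  unfold nS
  nlinarith

theorem nz_bwd : tot nz (G.bwd prog) ≤ 2 * G.s + prog.length * nS G := by
  have := tot_bwd G prog (v := nz) (A := prog.length) (B := 0) (D := 0) (S := 2) (C := 0)
    (fun J => by simpa using nz_W G prog J) (fun p => le_rfl) (fun p => le_rfl)
    (fun i => by simp [Geo.selI, nz]) le_rfl
  unfold nS
  nlinarith

theorem nj_fwd : tot nj (G.fwd prog) ≤ 2 * G.s + 5 * prog.length * G.d := by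
  have := tot_fwd G prog (v := nj) (A := 0) (B := prog.length) (D := 0) (S := 2)
    (fun J => by simpa using nj_W G prog J) (fun p => le_rfl) (fun p => le_rfl)
    (fun i => by simp [Geo.selF, nj])
  nlinarith

theorem nj_bwd : tot nj (G.bwd prog) ≤ 2 * G.s + 5 * prog.length * G.d := by
  have := tot_bwd G prog (v := nj) (A := 0) (B := prog.length) (D := 0) (S := 2) (C := 0)
    (fun J => by simpa using nj_W G prog J) (fun p => le_rfl) (fun p => le_rfl)
    (fun i => by simp [Geo.selI, nj]) le_rfl
  nlinarith

theorem nl_fwd : tot nl (G.fwd prog) ≤ 5 * prog.length * G.d := by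
  have := tot_fwd G prog (v := nl) (A := 0) (B := prog.length) (D := 0) (S := 0)
    (fun J => by simpa using nl_W G prog J) (fun p => le_rfl) (fun p => le_rfl)
    (fun i => by simp [Geo.selF, nl])
  nlinarith

theorem nl_bwd : tot nl (G.bwd prog) ≤ 5 * prog.length * G.d := by
  have := tot_bwd G prog (v := nl) (A := 0) (B := prog.length) (D := 0) (S := 0) (C := 0)
    (fun J => by simpa using nl_W G prog J) (fun p => le_rfl) (fun p => le_rfl)
    (fun i => by simp [Geo.selI, nl]) le_rfl
  nlinarith

theorem nd_fwd : tot nd (G.fwd prog) ≤ 2 * G.s + (prog.length + 1) * nS G := by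
  have := tot_fwd G prog (v := nd) (A := prog.length) (B := 0) (D := 1) (S := 2)
    (fun J => by simpa using nd_W G prog J) (fun p => le_rfl) (fun p => le_rfl)
    (fun i => by simp [Geo.selF, nd])
  unfold nS
  nlinarith

theorem nd_bwd : tot nd (G.bwd prog) ≤ 2 * G.s + (prog.length + 1) * nS G := by
  have := tot_bwd G prog (v := nd) (A := prog.length) (B := 0) (D := 1) (S := 2) (C := 1)
    (fun J => by simpa using nd_W G prog J) (fun p => le_rfl) (fun p => le_rfl)
    (fun i => by simp [Geo.selI, nd]) le_rfl
  unfold nS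
  nlinarith

theorem nc_fwd : tot nc (G.fwd prog) = 0 := by
  have := tot_fwd G prog (v := nc) (A := 0) (B := 0) (D := 0) (S := 0)
    (fun J => by simp [nc_W G prog J]) (fun p => le_rfl) (fun p => le_rfl)
    (fun i => by simp [Geo.selF, nc])
  omega

theorem nc_bwd : tot nc (G.bwd prog) ≤ 1 := by
  have := tot_bwd G prog (v := nc) (A := 0) (B := 0) (D := 0) (S := 0) (C := 1)
    (fun J => by simp [nc_W G prog J]) (fun p => le_rfl) (fun p => le_rfl)
    (fun i => by simp [Geo.selI, nc]) le_rfl
  omega

/-- The number of steps. -/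
theorem length_eq (l : List (St δ)) : l.length = tot nz l + tot nd l := by
  induction l with
  | nil => rfl
  | cons x l ih =>
    rw [List.length_cons, tot_cons, tot_cons, ih]
    cases x <;> simp [nz, nd] <;> omega

end Vale.Agent.P338.R3.H121
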