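import Vale.Agent.P338.R3.H121.Params
import Vale.Agent.P338.R3.H121.Count

/-!
P338-D, module COUNT (2): the geometry of the parameters, the growth of the schedule and the
inequalities between the precision parameters.
-/

namespace Vale.Agent.P338.R3.H121

open Vale.Agent.P338.R3.H282 Vale.Agent.P338.R3.H501.Rad

variable {δ : Type}

/-- The geometry of the parameters. -/
def geo (d s : ℕ) : Geo where
  a := aR d
  d := d
  s := s
  gs := Nat.sqrt d + 1
  t := d / (Nat.sqrt d + 1)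
  q := sR d
  iv := invR d

@[simp] theorem geo_a (d s : ℕ) : (geo d s).a = aR d := rfl
@[simp] theorem geo_d (d s : ℕ) : (geo d s).d = d := rfl
@[simp] theorem geo_s (d s : ℕ) : (geo d s).s = s := rfl

/-- Every digit is in a group. -/
theorem geo_groups (d s : ℕ) : d ≤ (geo d s).gs * ((geo d s).t + 1) :=
  (Nat.lt_mul_div_succ d (Nat.succ_pos _)).le

theorem geo_t_le (d s : ℕ) : (geo d s).t ≤ Nat.sqrt d := by
  have h : d < (Nat.sqrt d + 1) * (Nat.sqrt d + 1) := Nat.lt_succ_sqrt d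
  have h2 : d / (Nat.sqrt d + 1) < Nat.sqrt d + 1 := Nat.div_lt_of_lt_mul h
  exact Nat.lt_succ_iff.1 h2

theorem nS_geo (d s : ℕ) : nS (geo d s) ≤ 4 * Nat.sqrt d + 1 := by
  have := geo_t_le d s
  unfold nS
  have h2 : (geo d s).gs = Nat.sqrt d + 1 := rfl
  omega

/-- Binary logarithm of the Lipschitz constant of a step. -/
def lgK (G : Geo) : St δ → ℕ
  | .dn J => J.length
  | .up J => J.length
  | .dg (.loc J _) => (G.a + 2) * J.length
  | .dg (.hd _) => 1
  | .dg .corr => G.a * G.d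
  | .dg (.shA _ _) => 0
  | .dg (.shB _ _) => 0
  | .dg (.tw _ _) => 0

theorem tot_lgK (G : Geo) (l : List (St δ)) :
    tot (lgK G) l ≤ tot nj l + tot nd l + (G.a + 2) * tot nl l + G.a * G.d * tot nc l := by
  have := tot_le (v := lgK G) (A := 0) (B := 1) (D := 1) (B' := G.a + 2) (F := G.a * G.d)
    (fun J => by simp [lgK]) (fun J => by simp [lgK]) (fun J c => by simp [lgK])
    (fun b p => by simp [lgK]) (fun b p => by simp [lgK]) (fun i => by simp [lgK])
    (fun b i => by simp [lgK]) (by simp [lgK]) l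
  simpa using this

section
variable {d s : ℕ} (y : ℕ)

theorem aR_le_sq : aR d + 2 ≤ (d + s + y + 4) ^ 2 := by
  unfold aR
  have h : (d + 4) ^ 2 = d ^ 2 + 8 * d + 16 := by ring
  calc d ^ 2 + 3 + 2 ≤ (d + 4) ^ 2 := by omega
    _ ≤ (d + s + y + 4) ^ 2 := Nat.pow_le_pow_left (by omega) 2

theorem sqrt_le_self' : Nat.sqrt d ≤ d := Nat.sqrt_le_self d

theorem kB_le_cube : kB d s ≤ (d + s + y + 4) ^ 3 := by
  have h := aR_le_sq (d := d) (s := s) y
  unfold kB
  have h1 : aR d * d ≤ (d + s + y + 4) ^ 2 * d := Nat.mul_le_mul_right _ (by omega)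
  have h2 : (d + s + y + 4) ^ 3 = (d + s + y + 4) ^ 2 * d + (d + s + y + 4) ^ 2 * (s + y + 4) := by
    ring
  have h3 : s ≤ (d + s + y + 4) ^ 2 * (s + y + 4) := by
    calc s ≤ 1 * (s + y + 4) := by omega
      _ ≤ _ := Nat.mul_le_mul_right _ (Nat.one_le_pow _ _ (by omega))
  omega

/-- Bounds in terms of `X = d + s + y + 4` imply the bound by the payload. -/
theorem le_wW_of {c k : ℕ} (hk : k ≤ 8) (hc : c ≤ 2 ^ 10) {v : ℕ}
    (h : v ≤ c * (d + s + y + 4) ^ k) : v ≤ wW d s y := by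
  refine h.trans ?_
  unfold wW
  exact Nat.mul_le_mul hc (Nat.pow_le_pow_right (by omega) hk)

theorem kB_le_wW : kB d s ≤ wW d s y :=
  le_wW_of (c := 1) (k := 3) y (by norm_num) (by norm_num)
    (by simpa using kB_le_cube (d := d) (s := s) y)

theorem y_le_wW : y + 1 ≤ wW d s y :=
  le_wW_of (c := 1) (k := 1) y (by norm_num) (by norm_num) (by rw [pow_one]; omega)

theorem le_wW : 1024 ≤ wW d s y := by
  unfold wW
  have : 1 ≤ (d + s + y + 4) ^ 8 := Nat.one_le_pow _ _ (by omega)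
  omega

end

/-- Arithmetic core of the growth bound. -/
theorem arith_lam {X d s a L nSv : ℕ} (hX : 4 ≤ X) (hd : d ≤ X) (hs : s ≤ X) (ha : a + 2 ≤ X ^ 2)
    (hL : L ≤ 48 * X ^ 2) (hn : nSv ≤ 4 * X + 1) :
    (2 * s + 5 * L * d) + (2 * s + (L + 1) * nSv) + (a + 2) * (5 * L * d) + a * d ≤
      2 ^ 10 * X ^ 8 := by
  have h1 : 5 * L * d ≤ 240 * X ^ 3 := by
    calc 5 * L * d ≤ 5 * (48 * X ^ 2) * X := by gcongr
      _ = 240 * X ^ 3 := by ring
  have h2 : (L + 1) * nSv ≤ (49 * X ^ 2) * (5 * X) := by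
    apply Nat.mul_le_mul
    · have : 1 ≤ X ^ 2 := Nat.one_le_pow _ _ (by omega)
      omega
    · omega
  have h3 : (a + 2) * (5 * L * d) ≤ X ^ 2 * (240 * X ^ 3) := Nat.mul_le_mul ha h1
  have h4 : a * d ≤ X ^ 2 * X := Nat.mul_le_mul (by omega) hd
  have h5 : X ^ 3 ≤ X ^ 5 := Nat.pow_le_pow_right (by omega) (by norm_num)
  have h6 : X ≤ X ^ 5 := by
    calc X = X ^ 1 := (pow_one X).symm
      _ ≤ X ^ 5 := Nat.pow_le_pow_right (by omega) (by norm_num)
  have h7 : 64 * X ^ 5 ≤ X ^ 8 := by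
    calc 64 * X ^ 5 = 4 ^ 3 * X ^ 5 := by norm_num
      _ ≤ X ^ 3 * X ^ 5 := by gcongr
      _ = X ^ 8 := by ring
  have h8 : X ^ 2 * (240 * X ^ 3) = 240 * X ^ 5 := by ring
  have h9 : X ^ 2 * X = X ^ 3 := by ring
  have h10 : (49 * X ^ 2) * (5 * X) = 245 * X ^ 3 := by ring
  omega

variable (prog : List (Ly δ))

/-- Growth of the schedule: the product of the Lipschitz constants is at most `2 ^ wW`. -/
theorem lam_le {d s : ℕ} (y : ℕ) (hp : prog.length ≤ 48 * aR d + 30) :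
    tot (lgK (geo d s)) ((geo d s).fwd prog) ≤ wW d s y ∧
    tot (lgK (geo d s)) ((geo d s).bwd prog) ≤ wW d s y := by
  have hL : prog.length ≤ 48 * (d + s + y + 4) ^ 2 := by
    have := aR_le_sq (d := d) (s := s) y
    omega
  have hn : nS (geo d s) ≤ 4 * (d + s + y + 4) + 1 := by
    have := nS_geo d s
    have := Nat.sqrt_le_self d
    omega
  have key := arith_lam (X := d + s + y + 4) (d := d) (s := s) (a := aR d) (L := prog.length)
    (nSv := nS (geo d s)) (by omega) (by omega) (by omega) (aR_le_sq (d := d) (s := s) y) hL hn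
  have f1 := nj_fwd (geo d s) prog
  have f2 := nd_fwd (geo d s) prog
  have f3 := nl_fwd (geo d s) prog
  have f4 := nc_fwd (geo d s) prog
  have b1 := nj_bwd (geo d s) prog
  have b2 := nd_bwd (geo d s) prog
  have b3 := nl_bwd (geo d s) prog
  have b4 := nc_bwd (geo d s) prog
  have t1 := tot_lgK (geo d s) ((geo d s).fwd prog)
  have t2 := tot_lgK (geo d s) ((geo d s).bwd prog)
  simp only [geo_a, geo_d, geo_s] at *
  have f3' := Nat.mul_le_mul_left (aR d + 2) f3
  have b3' := Nat.mul_le_mul_left (aR d + 2) b3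
  have b4' := Nat.mul_le_mul_left (aR d * d) b4
  rw [f4] at t1
  unfold wW
  constructor
  · omega
  · omega

/-- The number of steps. -/
theorem length_le {d s : ℕ} (y : ℕ) (hp : prog.length ≤ 48 * aR d + 30) :
    ((geo d s).fwd prog).length ≤ wW d s y ∧ ((geo d s).bwd prog).length ≤ wW d s y := by
  have hL : prog.length ≤ 48 * (d + s + y + 4) ^ 2 := by
    have := aR_le_sq (d := d) (s := s) y
    omega
  have hn : nS (geo d s) ≤ 4 * (d + s + y + 4) + 1 := by
    have := nS_geo d s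
    have := Nat.sqrt_le_self d
    omega
  have f1 := nz_fwd (geo d s) prog
  have f2 := nd_fwd (geo d s) prog
  have b1 := nz_bwd (geo d s) prog
  have b2 := nd_bwd (geo d s) prog
  simp only [geo_a, geo_d, geo_s] at *
  set X := d + s + y + 4 with hX
  have hm : (prog.length + 1) * nS (geo d s) ≤ (49 * X ^ 2) * (5 * X) := by
    apply Nat.mul_le_mul
    · have : 1 ≤ X ^ 2 := Nat.one_le_pow _ _ (by omega)
      omega
    · omega
  have hm' : prog.length * nS (geo d s) ≤ (49 * X ^ 2) * (5 * X) :=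
    (Nat.mul_le_mul_right _ (Nat.le_succ _)).trans hm
  have h10 : (49 * X ^ 2) * (5 * X) = 245 * X ^ 3 := by ring
  have h11 : X ≤ X ^ 3 := by
    calc X = X ^ 1 := (pow_one X).symm
      _ ≤ X ^ 3 := Nat.pow_le_pow_right (by omega) (by norm_num)
  rw [length_eq, length_eq]
  constructor
  · refine le_wW_of (c := 2 ^ 10) (k := 3) y (by norm_num) le_rfl ?_
    rw [← hX]
    omega
  · refine le_wW_of (c := 2 ^ 10) (k := 3) y (by norm_num) le_rfl ?_
    rw [← hX]
    omega

/-- The scale: `2 ^ sc`. -/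
def sc (d s y : ℕ) : ℕ := 16 * wW d s y

/-- The inequalities of the error analysis. -/
theorem fix_ineq {d s y Λ w g ν c : ℕ} (hΛ : Λ ≤ wW d s y) (hw : w ≤ wW d s y)
    (hg : g ≤ wW d s y) (hν : ν ≤ wW d s y) (hc : c ≤ wW d s y) :
    3 * Λ + 2 * w + g + ν + c + 7 ≤ sc d s y ∧
      sc d s y + 3 * Λ + 2 * w + g + 10 ≤ bW d s y := by
  have := le_wW (d := d) (s := s) y
  unfold sc bW
  omega

/-- The inequality of the unloading: `M ≤ 2 ^ kB` blocks. -/
theorem unload_ineq {d s y M : ℕ} (hM : M ≤ 2 ^ kB d s) :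
    (2 * (M * 2 ^ y * 2 ^ (2 * wW d s y)) + 1) * 2 ^ (sc d s y + 2) ≤ 2 ^ bW d s y := by
  have h1 := le_wW (d := d) (s := s) y
  have h2 := kB_le_wW (d := d) (s := s) y
  have h3 := y_le_wW (d := d) (s := s) y
  have h4 : M * 2 ^ y * 2 ^ (2 * wW d s y) ≤ 2 ^ (kB d s + y + 2 * wW d s y) := by
    rw [pow_add, pow_add]
    gcongr
  have h5 : 2 * (M * 2 ^ y * 2 ^ (2 * wW d s y)) + 1 ≤ 2 ^ (kB d s + y + 2 * wW d s y + 2) := by
    rw [pow_add _ _ 2]
    have : 1 ≤ 2 ^ (kB d s + y + 2 * wW d s y) := Nat.one_le_two_pow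
    omega
  calc _ ≤ 2 ^ (kB d s + y + 2 * wW d s y + 2) * 2 ^ (sc d s y + 2) := by gcongr
    _ = 2 ^ (kB d s + y + 2 * wW d s y + 2 + (sc d s y + 2)) := by rw [← pow_add]
    _ ≤ _ := by
      apply Nat.pow_le_pow_right (by norm_num)
      unfold sc bW
      omega

end Vale.Agent.P338.R3.H121
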