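import Vale.Agent.P338.R3.H121.CostEnd
import Vale.Agent.P338.R3.H898.WtsM

/-!
P338-D, module COST (2): the cost of the core program has the form `Bd`.
-/

namespace Vale.Agent.P338.R3.H121

open Vale.Agent.P338.R2.H898 Vale.Agent.P338.R3.H772 Vale.Agent.P338.R3.H831
open Vale.Agent.P338.R3.H501.Rad Vale.Agent.Lib.PolyTime
open Vale.Agent.P338.R3.H898 (wts wts_acts iters_le)
open Vale.Agent.P338.R3.H313 (PV KP PP GP fwP bkP nTp nUp insP)
open Vale.Agent.P338.R3.H968 (CPar)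
open Vale.Agent.P338.R3.H282 (DC)
open Vale.Agent.P338.R3.H352 (Dc lprog)

/-- The parameters of the control. -/
def bigP (p : P0) : PV := ⟨pd p, ps p, py p⟩

/-- The parameters of the cells. -/
def cpP (p : P0) : CPar := cpar (pd p) (ps p) (py p)

/-- The passes with products of words. -/
noncomputable def uC (d s : ℕ) : ℝ := (s : ℝ) + aR d * (Nat.sqrt d + 1)

/-- The sum of the numbers of bits of the zeta steps. -/
noncomputable def vC (d s : ℕ) : ℝ := (s : ℝ) + aR d * d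

theorem passC_eq (d s : ℕ) : passC d s = uC d s * sgB (d + s) + vC d s * rtB (d + s) := rfl

theorem mainC_eq (A : MTM) (d s y : ℕ) : mainC A d s y =
    cap d s y * (passC d s + uC d s * kap A (bC d s y) + kap A (lC d s y)) := by
  rw [mainC, passC_eq, uC, vC]
  ring

theorem three_le_aR (d : ℕ) : 3 ≤ aR d := by unfold aR; omega

theorem length_lprog (a : ℕ) : (lprog a).length = 48 * a + 30 := by
  rw [lprog, List.length_map, H352.length_prog]

section counts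

variable (p : PV)

theorem nz_le : (tot nz (fwP p ++ bkP p) : ℝ) ≤ 464 * uC p.d p.s := by
  have h1 := nz_fwd (GP p) (lprog (aR p.d))
  have h2 := nz_bwd (GP p) (lprog (aR p.d))
  have h3 : nS (GP p) ≤ 4 * Nat.sqrt p.d + 1 := nS_geo p.d p.s
  have h4 := three_le_aR p.d
  have h5 : (lprog (aR p.d)).length ≤ 58 * aR p.d := by
    rw [length_lprog]
    omega
  have h6 : (GP p).s = p.s := rfl
  have h7 : (lprog (aR p.d)).length * nS (GP p) ≤ 58 * aR p.d * (4 * (Nat.sqrt p.d + 1)) :=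
    Nat.mul_le_mul h5 (by omega)
  have h8 : tot nz (fwP p ++ bkP p) ≤ 464 * (p.s + aR p.d * (Nat.sqrt p.d + 1)) := by
    rw [tot_append]
    unfold fwP bkP
    rw [h6] at h1 h2
    nlinarith
  have h9 : ((tot nz (fwP p ++ bkP p) : ℕ) : ℝ) ≤
      ((464 * (p.s + aR p.d * (Nat.sqrt p.d + 1)) : ℕ) : ℝ) := by exact_mod_cast h8
  refine h9.trans_eq ?_
  push_cast
  rfl

theorem nd_le : (tot nd (fwP p ++ bkP p) : ℝ) ≤ 472 * uC p.d p.s := by
  have h1 := nd_fwd (GP p) (lprog (aR p.d))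
  have h2 := nd_bwd (GP p) (lprog (aR p.d))
  have h3 : nS (GP p) ≤ 4 * Nat.sqrt p.d + 1 := nS_geo p.d p.s
  have h4 := three_le_aR p.d
  have h5 : (lprog (aR p.d)).length + 1 ≤ 59 * aR p.d := by
    rw [length_lprog]
    omega
  have h6 : (GP p).s = p.s := rfl
  have h7 : ((lprog (aR p.d)).length + 1) * nS (GP p) ≤ 59 * aR p.d * (4 * (Nat.sqrt p.d + 1)) :=
    Nat.mul_le_mul h5 (by omega)
  have h8 : tot nd (fwP p ++ bkP p) ≤ 472 * (p.s + aR p.d * (Nat.sqrt p.d + 1)) := by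
    rw [tot_append]
    unfold fwP bkP
    rw [h6] at h1 h2
    nlinarith
  have h9 : ((tot nd (fwP p ++ bkP p) : ℕ) : ℝ) ≤
      ((472 * (p.s + aR p.d * (Nat.sqrt p.d + 1)) : ℕ) : ℝ) := by exact_mod_cast h8
  refine h9.trans_eq ?_
  push_cast
  rfl

theorem nj_le : (tot nj (fwP p ++ bkP p) : ℝ) ≤ 580 * vC p.d p.s := by
  have h1 := nj_fwd (GP p) (lprog (aR p.d))
  have h2 := nj_bwd (GP p) (lprog (aR p.d))
  have h4 := three_le_aR p.d
  have h5 : (lprog (aR p.d)).length ≤ 58 * aR p.d := by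
    rw [length_lprog]
    omega
  have h6 : (GP p).s = p.s := rfl
  have h6' : (GP p).d = p.d := rfl
  have h7 : 5 * (lprog (aR p.d)).length * p.d ≤ 5 * (58 * aR p.d) * p.d :=
    Nat.mul_le_mul_right _ (Nat.mul_le_mul_left _ h5)
  have h8 : tot nj (fwP p ++ bkP p) ≤ 580 * (p.s + aR p.d * p.d) := by
    rw [tot_append]
    unfold fwP bkP
    rw [h6, h6'] at h1 h2
    nlinarith
  have h9 : ((tot nj (fwP p ++ bkP p) : ℕ) : ℝ) ≤
      ((580 * (p.s + aR p.d * p.d) : ℕ) : ℝ) := by exact_mod_cast h8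
  refine h9.trans_eq ?_
  push_cast
  rfl

end counts

section real

variable {d s : ℕ}

theorem one_le_uC (hs : 1 ≤ s) (d : ℕ) : 1 ≤ uC d s := by
  have h3 : (1 : ℝ) ≤ s := by exact_mod_cast hs
  have h4 : (0 : ℝ) ≤ aR d * (Nat.sqrt d + 1) := by positivity
  unfold uC
  linarith

theorem vC_nonneg (d s : ℕ) : 0 ≤ vC d s := by
  unfold vC
  positivity

theorem uC_le_passC (hs : 1 ≤ s) (d : ℕ) : uC d s ≤ passC d s := by
  have h1 := one_le_sgB (d + s)
  have h2 := mul_nonneg (vC_nonneg d s) (rtB_nonneg (d + s))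
  have h3 := one_le_uC hs d
  rw [passC_eq]
  have h4 : uC d s * 1 ≤ uC d s * sgB (d + s) := mul_le_mul_of_nonneg_left h1 (by linarith)
  linarith

/-- The passes without products, from the counts. -/
theorem zeta_le {len m z j : ℝ} (hlen : 0 ≤ len) (hm : 0 ≤ m) {q : ℝ} (hq : 0 ≤ q)
    (hsg : 1 + len + m = sgB (d + s)) (hrt : q = rtB (d + s)) (hz : z ≤ 464 * uC d s)
    (hj : j ≤ 580 * vC d s) :
    (3 * len + 3 * m) * z + 6 * q * j ≤ 4000 * passC d s := by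
  have h1 : (3 * len + 3 * m) * z ≤ (3 * sgB (d + s)) * (464 * uC d s) := by
    have a : (3 * len + 3 * m) * z ≤ (3 * len + 3 * m) * (464 * uC d s) :=
      mul_le_mul_of_nonneg_left hz (by linarith)
    have hu : 0 ≤ uC d s := by unfold uC; positivity
    have b : (3 * len + 3 * m) * (464 * uC d s) ≤ (3 * sgB (d + s)) * (464 * uC d s) :=
      mul_le_mul_of_nonneg_right (by linarith) (by linarith)
    exact a.trans b
  have h2 : 6 * q * j ≤ 6 * q * (580 * vC d s) := mul_le_mul_of_nonneg_left hj (by linarith)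
  have hu : 0 ≤ uC d s := by unfold uC; positivity
  have hv := vC_nonneg d s
  have h3 : 0 ≤ uC d s * sgB (d + s) := mul_nonneg hu (by linarith)
  have h4 : 0 ≤ vC d s * rtB (d + s) := mul_nonneg hv (by linarith)
  rw [passC_eq]
  rw [hrt] at h2 ⊢
  linarith

end real

/-- Total weight of the acts. -/
theorem wts_le_passC {wt : CPar → ℕ → ℕ} {P : CPar} {w : ℕ}
    (hw : ∀ o, o ≠ 9 → o ≠ 10 → wt P o ≤ w) (cw : PV × DC Dc × ℕ → List Bool × List Bool)
    (p : PV) (hs : 1 ≤ p.s) :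
    (wts wt P (H313.Ctl.acts nTp nUp (insP cw) p) : ℝ) ≤
      2 ^ KP p * (w * (18000 * passC p.d p.s) + wt P 9 * (944 * uC p.d p.s) + wt P 10) := by
  have h := wts_acts hw cw p
  have hz := zeta_le (d := p.d) (s := p.s) (len := (PP p).2.length) (m := (PP p).1)
    (q := (PP p).2.length / ((PP p).1 * 2 ^ (PP p).1)) (Nat.cast_nonneg _) (Nat.cast_nonneg _)
    (by positivity) rfl rfl (nz_le p) (nj_le p)
  have hd := nd_le p
  have hup := uC_le_passC hs p.d
  have hu1 := one_le_uC hs p.d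
  have hw0 : (0 : ℝ) ≤ w := Nat.cast_nonneg _
  have h9 : (0 : ℝ) ≤ wt P 9 := Nat.cast_nonneg _
  refine h.trans (mul_le_mul_of_nonneg_left ?_ (by positivity))
  have a1 := mul_le_mul_of_nonneg_left hz (by linarith : (0 : ℝ) ≤ 4 * w)
  have a2 := mul_le_mul_of_nonneg_left hd (by linarith : (0 : ℝ) ≤ 2 * wt P 9 + 4 * w)
  have a3 : (w : ℝ) * uC p.d p.s ≤ w * passC p.d p.s := mul_le_mul_of_nonneg_left hup hw0
  have a4 : (w : ℝ) * 1 ≤ w * passC p.d p.s := mul_le_mul_of_nonneg_left (hu1.trans hup) hw0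
  linarith

/-- Number of iterations. -/
theorem iters_le_passC (cw : PV × DC Dc × ℕ → List Bool × List Bool) (p : PV) (hs : 1 ≤ p.s) :
    (H313.Ctl.iters nTp nUp (insP cw) p : ℝ) ≤ 2 ^ KP p * (80000 * passC p.d p.s) := by
  have h := iters_le cw p
  have hz := zeta_le (d := p.d) (s := p.s) (len := (PP p).2.length) (m := (PP p).1)
    (q := (PP p).2.length / ((PP p).1 * 2 ^ (PP p).1)) (Nat.cast_nonneg _) (Nat.cast_nonneg _)
    (by positivity) rfl rfl (nz_le p) (nj_le p)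
  have hd := nd_le p
  have hup := uC_le_passC hs p.d
  have hu1 := one_le_uC hs p.d
  refine h.trans ?_
  have a1 := mul_le_mul_of_nonneg_left hz (by positivity : (0 : ℝ) ≤ 2 ^ KP p)
  have a2 := mul_le_mul_of_nonneg_left hd (by positivity : (0 : ℝ) ≤ 2 ^ KP p)
  have a3 := mul_le_mul_of_nonneg_left hup (by positivity : (0 : ℝ) ≤ 2 ^ KP p)
  have a4 := mul_le_mul_of_nonneg_left (hu1.trans hup) (by positivity : (0 : ℝ) ≤ 2 ^ KP p)
  have e : (2 : ℝ) ^ KP p * (80000 * passC p.d p.s) = 80000 * (2 ^ KP p * passC p.d p.s) := by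
    ring
  rw [e]
  have e2 : 4 * ((2 : ℝ) ^ KP p * (4 * ((3 * (PP p).2.length + 3 * (PP p).1) *
      tot nz (fwP p ++ bkP p) +
        6 * ((PP p).2.length / ((PP p).1 * 2 ^ (PP p).1)) * tot nj (fwP p ++ bkP p)) +
        6 * tot nd (fwP p ++ bkP p) + 18)) =
      16 * (2 ^ KP p * ((3 * (PP p).2.length + 3 * (PP p).1) * tot nz (fwP p ++ bkP p) +
        6 * ((PP p).2.length / ((PP p).1 * 2 ^ (PP p).1)) * tot nj (fwP p ++ bkP p))) +
      24 * (2 ^ KP p * tot nd (fwP p ++ bkP p)) + 72 * (2 ^ KP p * 1) := by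
    ring
  rw [e2]
  linarith

/-- The cells. -/
theorem pow_ell_le {s : ℕ} (hs : 1 ≤ s) (d y : ℕ) : 2 ^ kB d s * ell d s y ≤ 512 * cap d s y := by
  have h := cells_le hs d y
  unfold nC at h
  rw [pow_add] at h
  have e : 2 ^ kB d s * 2 ^ 2 * ell d s y = 4 * (2 ^ kB d s * ell d s y) := by ring
  rw [e] at h
  omega

/-- **Bounds for the weights of the operations.** -/
def WtOK (A : MTM) (wt : CPar → ℕ → ℕ) : Prop :=
  ∃ C : ℕ, ∀ P : CPar, P.Ok → (∀ o, o ≠ 9 → o ≠ 10 → wt P o ≤ C * (P.ell + 1)) ∧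
    wt P 9 ≤ C * (P.ell + 1 + P.nw * (mulTime A (2 * P.b) + 2 * P.b)) ∧
    wt P 10 ≤ C * (P.ell + 1 + mulTime A ((3 * P.b + 1) * P.nw) + (3 * P.b + 1) * P.nw)

/-- **The form of the cost of the setup.** -/
def SetupCost (cS : P0 → ℕ) : Prop :=
  ∃ C c : ℕ, ∀ d s y, d + 1 ≤ s → 1 ≤ y →
    cS (mkP d s y) ≤ C * (ell d s y + cap d s y + 1) + C * (2 ^ aR d + s + y + 2) ^ c

theorem kap_mul (A : MTM) {n : ℕ} (hn : 1 ≤ n) : (mulTime A n : ℝ) = kap A n * n := by
  have : (n : ℝ) ≠ 0 := by positivity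
  unfold kap
  field_simp

/-- Weight of the products of words. -/
theorem w9_le (A : MTM) {C d s y w : ℕ} (h : w ≤ C * ((cpar d s y).ell + 1 + (cpar d s y).nw *
    (mulTime A (2 * (cpar d s y).b) + 2 * (cpar d s y).b))) :
    (w : ℝ) ≤ C * ell d s y * (4 + 2 * kap A (bC d s y)) := by
  rw [cpar_ell, cpar_nw, cpar_b] at h
  have h1 : (1 : ℝ) ≤ ell d s y := by exact_mod_cast ell_pos d s y
  have h2 : (w : ℝ) ≤ C * (ell d s y + 1 + 2 ^ (y + 1) * (mulTime A (bC d s y) + 2 * bW d s y)) := by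
    exact_mod_cast h
  have h3 := kap_mul A (one_le_bC d s y)
  have h4 : (bC d s y : ℝ) = 2 * bW d s y := by
    unfold bC
    push_cast
    rfl
  have h5 : (ell d s y : ℝ) = 2 ^ (y + 1) * bW d s y := by
    unfold ell
    push_cast
    rfl
  have e : (2 : ℝ) ^ (y + 1) * (mulTime A (bC d s y) + 2 * bW d s y) =
      ell d s y * (2 * kap A (bC d s y) + 2) := by
    rw [h3, h4, h5]
    ring
  rw [e] at h2
  refine h2.trans ?_
  rw [mul_assoc]
  refine mul_le_mul_of_nonneg_left ?_ (Nat.cast_nonneg _)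
  linarith

/-- Weight of the products of cells. -/
theorem w10_le (A : MTM) {C d s y w : ℕ} (h : w ≤ C * ((cpar d s y).ell + 1 +
    mulTime A ((3 * (cpar d s y).b + 1) * (cpar d s y).nw) +
      (3 * (cpar d s y).b + 1) * (cpar d s y).nw)) :
    (w : ℝ) ≤ C * ell d s y * (6 + 4 * kap A (lC d s y)) := by
  rw [cpar_ell, cpar_nw, cpar_b] at h
  have h1 : (1 : ℝ) ≤ ell d s y := by exact_mod_cast ell_pos d s y
  have h2 : (w : ℝ) ≤ C * (ell d s y + 1 + mulTime A (lC d s y) + lC d s y) := by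
    exact_mod_cast h
  have h3 := kap_mul A (one_le_lC d s y)
  have h4 := lC_le d s y
  have h5 := kap_nonneg A (lC d s y)
  rw [h3] at h2
  refine h2.trans ?_
  rw [mul_assoc]
  refine mul_le_mul_of_nonneg_left ?_ (Nat.cast_nonneg _)
  have h6 := mul_le_mul_of_nonneg_left h4 h5
  nlinarith

theorem key_le {w w9 w10 T u p a b : ℝ} (hT : 0 ≤ T) (h1 : w ≤ T * 2) (h9 : w9 ≤ T * (4 + 2 * a))
    (h10 : w10 ≤ T * (6 + 4 * b)) (hu : 1 ≤ u) (hp : u ≤ p) (ha : 0 ≤ a) (hb : 0 ≤ b) :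
    w * (18000 * p) + w9 * (944 * u) + w10 ≤ T * (50000 * (p + u * a + b)) := by
  have a1 := mul_le_mul_of_nonneg_right h1 (by linarith : 0 ≤ 18000 * p)
  have a2 := mul_le_mul_of_nonneg_right h9 (by linarith : 0 ≤ 944 * u)
  have a3 := mul_le_mul_of_nonneg_left hp hT
  have a4 := mul_le_mul_of_nonneg_left (hu.trans hp) hT
  have a5 : 0 ≤ T * (u * a) := by positivity
  have a6 : 0 ≤ T * b := by positivity
  linarith

theorem cells_mul_le {A : MTM} {C : ℕ} {d s y : ℕ} (hs : 1 ≤ s) {x : ℝ}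
    (h : x ≤ 2 ^ kB d s * (C * ell d s y * (50000 *
      (passC d s + uC d s * kap A (bC d s y) + kap A (lC d s y))))) :
    x ≤ (512 * C * 50000 + 1) * mainC A d s y := by
  have h2 : ((2 : ℝ) ^ kB d s * ell d s y) ≤ 512 * cap d s y := by
    exact_mod_cast pow_ell_le hs d y
  have k1 := kap_nonneg A (bC d s y)
  have k2 := kap_nonneg A (lC d s y)
  have k3 := one_le_passC hs d
  have k4 := one_le_uC hs d
  obtain ⟨X, hX⟩ : ∃ X : ℝ, X = passC d s + uC d s * kap A (bC d s y) + kap A (lC d s y) :=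
    ⟨_, rfl⟩
  have hX0 : 0 ≤ X := by
    rw [hX]
    positivity
  have hm : mainC A d s y = cap d s y * X := by rw [mainC_eq, hX]
  rw [← hX] at h
  have hm0 : 0 ≤ mainC A d s y := (Nat.cast_nonneg _).trans (cap_le_mainC A hs d y)
  calc x ≤ 2 ^ kB d s * (C * ell d s y * (50000 * X)) := h
    _ = (2 ^ kB d s * ell d s y) * (C * (50000 * X)) := by ring
    _ ≤ (512 * cap d s y) * (C * (50000 * X)) := mul_le_mul_of_nonneg_right h2 (by positivity)
    _ = 512 * C * 50000 * mainC A d s y := by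
        rw [hm]
        ring
    _ ≤ _ := by linarith

/-- The acts. -/
theorem acts_cost {A : MTM} {wt : CPar → ℕ → ℕ} (hW : WtOK A wt) :
    ∃ C : ℝ, 0 < C ∧ ∀ (cw : PV × DC Dc × ℕ → List Bool × List Bool) (d s y : ℕ), 1 ≤ s →
      (wts wt (cpar d s y) (H313.Ctl.acts nTp nUp (insP cw) ⟨d, s, y⟩) : ℝ) ≤
        C * mainC A d s y := by
  obtain ⟨C, hW⟩ := hW
  refine ⟨512 * C * 50000 + 1, by positivity, fun cw d s y hs => ?_⟩
  obtain ⟨w1, w9, w10⟩ := hW _ (cpar_ok d s y)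
  rw [cpar_ell] at w1
  have h := wts_le_passC (w := C * (ell d s y + 1)) w1 cw ⟨d, s, y⟩ hs
  have hk : KP (⟨d, s, y⟩ : PV) = kB d s := by
    unfold KP kB
    exact Nat.add_comm _ _
  rw [hk] at h
  have hw : ((C * (ell d s y + 1) : ℕ) : ℝ) ≤ C * ell d s y * 2 := by
    have h1 : (1 : ℝ) ≤ ell d s y := by exact_mod_cast ell_pos d s y
    rw [Nat.cast_mul, Nat.cast_add, Nat.cast_one, mul_assoc]
    exact mul_le_mul_of_nonneg_left (by linarith) (Nat.cast_nonneg _)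
  have key := key_le (mul_nonneg (Nat.cast_nonneg _) (Nat.cast_nonneg _)) hw (w9_le A w9)
    (w10_le A w10) (one_le_uC hs d) (uC_le_passC hs d) (kap_nonneg A (bC d s y))
    (kap_nonneg A (lC d s y))
  have h2 : (0 : ℝ) ≤ 2 ^ kB d s := pow_nonneg (by norm_num) _
  exact cells_mul_le hs (h.trans (mul_le_mul_of_nonneg_left key h2))

theorem ten_mul_le (r : ℕ) : 10 * (r + 1) + 2 ≤ (r + 2) ^ 5 := by
  have h1 : 2 ^ 4 ≤ (r + 2) ^ 4 := Nat.pow_le_pow_left (by omega) 4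
  calc 10 * (r + 1) + 2 ≤ 2 ^ 4 * (r + 2) := by omega
    _ ≤ (r + 2) ^ 4 * (r + 2) := Nat.mul_le_mul_right _ h1
    _ = (r + 2) ^ 5 := by ring

/-- The control. -/
theorem ctl_cost (c : ℕ) (cw : PV × DC Dc × ℕ → List Bool × List Bool) (d s y : ℕ) (hs : 1 ≤ s) :
    (((H313.Ctl.iters nTp nUp (insP cw) ⟨d, s, y⟩ + 1) *
      pb c (esize (⟨d, s, y⟩ : PV)) : ℕ) : ℝ) ≤ 80001 * ctlC (5 * c) d s y := by
  have h := iters_le_passC cw ⟨d, s, y⟩ hs
  have hk : KP (⟨d, s, y⟩ : PV) = kB d s := by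
    unfold KP kB
    exact Nat.add_comm _ _
  rw [hk] at h
  have hp := one_le_passC hs d
  have h2 : (1 : ℝ) ≤ 2 ^ kB d s := one_le_pow₀ (by norm_num)
  have h3 : pb c (esize (⟨d, s, y⟩ : PV)) ≤ (2 ^ aR d + s + y + 2) ^ (5 * c) := by
    have h4 := PV.esize_le ⟨d, s, y⟩
    rw [pow_mul]
    refine Nat.pow_le_pow_left ?_ c
    exact (Nat.add_le_add_right h4 2).trans (ten_mul_le _)
  have h5 : ((pb c (esize (⟨d, s, y⟩ : PV)) : ℕ) : ℝ) ≤
      ((2 ^ aR d + s + y + 2 : ℕ) : ℝ) ^ (5 * c) := by exact_mod_cast h3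
  rw [Nat.cast_mul, Nat.cast_add, Nat.cast_one]
  have h6 : (H313.Ctl.iters nTp nUp (insP cw) ⟨d, s, y⟩ : ℝ) + 1 ≤
      80001 * (2 ^ kB d s * passC d s) := by
    have h7 : (1 : ℝ) ≤ 2 ^ kB d s * passC d s := one_le_mul_of_one_le_of_one_le h2 hp
    linarith
  have h8 : (0 : ℝ) ≤ 80001 * (2 ^ kB d s * passC d s) := by positivity
  calc _ ≤ 80001 * (2 ^ kB d s * passC d s) * ((2 ^ aR d + s + y + 2 : ℕ) : ℝ) ^ (5 * c) :=
        mul_le_mul h6 h5 (Nat.cast_nonneg _) h8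
    _ = _ := by
        unfold ctlC
        ring

theorem ctlC_nonneg (c : ℕ) {s : ℕ} (hs : 1 ≤ s) (d y : ℕ) : 0 ≤ ctlC c d s y := by
  have := one_le_passC hs d
  unfold ctlC
  positivity

theorem ctlC_mono {c c' : ℕ} (h : c ≤ c') {s : ℕ} (hs : 1 ≤ s) (d y : ℕ) :
    ctlC c d s y ≤ ctlC c' d s y := by
  have := one_le_passC hs d
  unfold ctlC
  have h1 : (1 : ℝ) ≤ ((2 ^ aR d + s + y + 2 : ℕ) : ℝ) := by
    push_cast
    have : (0 : ℝ) ≤ 2 ^ aR d + s + y := by positivity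
    linarith
  gcongr

theorem pow_le_ctlC (c : ℕ) {s : ℕ} (hs : 1 ≤ s) (d y : ℕ) :
    (((2 ^ aR d + s + y + 2 : ℕ) : ℝ) ^ c) ≤ ctlC c d s y := by
  have hp := one_le_passC hs d
  have h2 : (1 : ℝ) ≤ 2 ^ kB d s := one_le_pow₀ (by norm_num)
  have h7 : (1 : ℝ) ≤ 2 ^ kB d s * passC d s := one_le_mul_of_one_le_of_one_le h2 hp
  unfold ctlC
  exact le_mul_of_one_le_left (by positivity) h7

/-- The setup. -/
theorem setup_cost {A : MTM} {cS : P0 → ℕ} (h : SetupCost cS) : ∃ (C : ℝ) (c : ℕ), 0 < C ∧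
    ∀ d s y, d + 1 ≤ s → 1 ≤ y →
      (cS (mkP d s y) : ℝ) ≤ C * (mainC A d s y + ctlC c d s y) := by
  obtain ⟨C, c, h⟩ := h
  refine ⟨600 * C + 1, c, by positivity, fun d s y hs hy => ?_⟩
  have hs1 : 1 ≤ s := by omega
  have h1 := h d s y hs hy
  have h2 := pow_ell_le hs1 d y
  have h3 : ell d s y ≤ 512 * cap d s y :=
    (Nat.le_mul_of_pos_left _ (by positivity)).trans h2
  have h4 := cap_pos d s y
  have h5 : cS (mkP d s y) ≤ C * (600 * cap d s y) + C * (2 ^ aR d + s + y + 2) ^ c :=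
    h1.trans (Nat.add_le_add_right (Nat.mul_le_mul_left _ (by omega)) _)
  have h6 : (cS (mkP d s y) : ℝ) ≤ C * (600 * cap d s y) +
      C * ((2 ^ aR d + s + y + 2 : ℕ) : ℝ) ^ c := by exact_mod_cast h5
  have h7 := cap_le_mainC A hs1 d y
  have h8 := pow_le_ctlC c hs1 d y
  have hC : (0 : ℝ) ≤ C := Nat.cast_nonneg _
  have h9 := mul_le_mul_of_nonneg_left h7 hC
  have h10 := mul_le_mul_of_nonneg_left h8 hC
  have h11 : (0 : ℝ) ≤ mainC A d s y := (Nat.cast_nonneg _).trans h7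
  have h12 := ctlC_nonneg c hs1 d y
  have h13 := mul_nonneg hC h12
  nlinarith

/-- **The cost of the core program.** -/
theorem bd_of {A : MTM} {wt : CPar → ℕ → ℕ} {cS : P0 → ℕ} (K c : ℕ) (hW : WtOK A wt)
    (hS : SetupCost cS) (cw : PV × DC Dc × ℕ → List Bool × List Bool) :
    Bd A (fun p => cS p + (K * wts wt (cpP p) (H313.Ctl.acts nTp nUp (insP cw) (bigP p)) +
      (H313.Ctl.iters nTp nUp (insP cw) (bigP p) + 1) * pb c (esize (bigP p))) + 1) := by
  obtain ⟨C1, hC1, h1⟩ := acts_cost hW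
  obtain ⟨C2, c2, hC2, h2⟩ := setup_cost (A := A) hS
  refine ⟨C2 + K * C1 + 80002, max c2 (5 * c), by positivity, fun d s y hs hy => ?_⟩
  have hs1 : 1 ≤ s := by omega
  have a1 := h1 cw d s y hs1
  have a2 := h2 d s y hs hy
  have a3 := ctl_cost c cw d s y hs1
  have b2 := ctlC_mono (le_max_left c2 (5 * c)) hs1 d y
  have b3 := ctlC_mono (le_max_right c2 (5 * c)) hs1 d y
  have b4 := ctlC_nonneg (max c2 (5 * c)) hs1 d y
  have h7 := cap_le_mainC A hs1 d y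
  have h8 : (1 : ℝ) ≤ cap d s y := by exact_mod_cast cap_pos d s y
  show ((cS (mkP d s y) + (K * wts wt (cpar d s y) (H313.Ctl.acts nTp nUp (insP cw) ⟨d, s, y⟩) +
      (H313.Ctl.iters nTp nUp (insP cw) ⟨d, s, y⟩ + 1) * pb c (esize (⟨d, s, y⟩ : PV))) + 1 : ℕ)
        : ℝ) ≤ _
  rw [Nat.cast_add, Nat.cast_add, Nat.cast_add, Nat.cast_mul, Nat.cast_one]
  have a1' := mul_le_mul_of_nonneg_left a1 (Nat.cast_nonneg (α := ℝ) K)
  have a2' : C2 * (mainC A d s y + ctlC c2 d s y) ≤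
      C2 * (mainC A d s y + ctlC (max c2 (5 * c)) d s y) :=
    mul_le_mul_of_nonneg_left (by linarith) hC2.le
  have a4 : 0 ≤ (K : ℝ) * C1 * ctlC (max c2 (5 * c)) d s y := by positivity
  nlinarith

end Vale.Agent.P338.R3.H121
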