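import Vale.Agent.P338.R3.H121.Par
import Vale.Agent.P338.R3.H831.NFBest
import Vale.Agent.P338.R3.H772.Wire
import Vale.Agent.P338.R3.H651.Adapt

/-!
P338-D, module COST (1): from the bound `Bd` of the cost of the core program in the parameters
`(d, s, y)` to the stages of the end.
-/

namespace Vale.Agent.P338.R3.H121

open Vale.Agent.P338.R2.H898 Vale.Agent.P338.R3.H772 Vale.Agent.P338.R3.H831
open Vale.Agent.P338.R3.H501.Rad Vale.Agent.Lib.PolyTime Filter Topology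

/-- Length of the factors in the products of words. -/
def bC (d s y : ℕ) : ℕ := 2 * bW d s y

/-- Length of the factors in the products of packed cells. -/
def lC (d s y : ℕ) : ℕ := (3 * bW d s y + 1) * 2 ^ (y + 1)

/-- Passes without products. -/
noncomputable def passC (d s : ℕ) : ℝ :=
  ((s : ℝ) + aR d * (Nat.sqrt d + 1)) * sgB (d + s) + (s + aR d * d) * rtB (d + s)

/-- The cost of the acts. -/
noncomputable def mainC (A : MTM) (d s y : ℕ) : ℝ :=
  cap d s y * (((s : ℝ) + aR d * (Nat.sqrt d + 1)) * (sgB (d + s) + kap A (bC d s y)) +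
    (s + aR d * d) * rtB (d + s) + kap A (lC d s y))

/-- The cost of the control. -/
noncomputable def ctlC (c d s y : ℕ) : ℝ :=
  2 ^ kB d s * passC d s * ((2 ^ aR d + s + y + 2 : ℕ) : ℝ) ^ c

/-- **The form of the cost of the core program** with the black box `A`. -/
def Bd (A : MTM) (cst : P0 → ℕ) : Prop :=
  ∃ (C : ℝ) (c : ℕ), 0 < C ∧ ∀ d s y, d + 1 ≤ s → 1 ≤ y →
    (cst (mkP d s y) : ℝ) ≤ C * (mainC A d s y + ctlC c d s y)

theorem one_le_sgB (D : ℕ) : 1 ≤ sgB D := by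
  unfold sgB
  have h1 : (0 : ℝ) ≤ (H527.best D).2.length := Nat.cast_nonneg _
  have h2 : (0 : ℝ) ≤ (H527.best D).1 := Nat.cast_nonneg _
  linarith

theorem one_le_passC {s : ℕ} (hs : 1 ≤ s) (d : ℕ) : 1 ≤ passC d s := by
  have h1 := one_le_sgB (d + s)
  have h2 := rtB_nonneg (d + s)
  have h3 : (1 : ℝ) ≤ s := by exact_mod_cast hs
  have h4 : (0 : ℝ) ≤ aR d * (Nat.sqrt d + 1) := by positivity
  have h5 : (0 : ℝ) ≤ (s + aR d * d) * rtB (d + s) := by positivity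
  unfold passC
  nlinarith

theorem cap_passC_le (A : MTM) (d s y : ℕ) : cap d s y * passC d s ≤ mainC A d s y := by
  unfold mainC passC
  have h1 := kap_nonneg A (bC d s y)
  have h2 := kap_nonneg A (lC d s y)
  have h4 : (0 : ℝ) ≤ s + aR d * (Nat.sqrt d + 1) := by positivity
  have h5 := mul_nonneg h4 h1
  apply mul_le_mul_of_nonneg_left _ (Nat.cast_nonneg _)
  rw [mul_add]
  linarith

theorem pow_kB_le {s : ℕ} (hs : 1 ≤ s) (d y : ℕ) : 2 ^ kB d s * 2 ^ y ≤ 4 * cap d s y := by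
  obtain ⟨s, rfl⟩ := Nat.exists_eq_add_of_le' hs
  have h2 := pow_le_NR d
  have h3 := wW_pos d (s + 1) y
  unfold cap kB
  rw [Nat.add_sub_cancel]
  calc 2 ^ (s + 1 + aR d * d) * 2 ^ y = 2 * 2 ^ s * 2 ^ (aR d * d) * 2 ^ y := by ring
    _ ≤ 2 * 2 ^ s * (2 * NR d) * 2 ^ y := by gcongr
    _ = 4 * (2 ^ s * NR d * 2 ^ y * 1) := by ring
    _ ≤ 4 * (2 ^ s * NR d * 2 ^ y * wW d (s + 1) y) := by gcongr; omega

/-- The control is cheap. -/
theorem ctlC_le (A : MTM) {c d s y : ℕ} (hs : 1 ≤ s) (h : (2 ^ aR d + s + y + 2) ^ c ≤ 2 ^ y) :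
    ctlC c d s y ≤ 4 * mainC A d s y := by
  have h1 : (((2 ^ aR d + s + y + 2 : ℕ) : ℝ) ^ c) ≤ 2 ^ y := by exact_mod_cast h
  have h2 : ((2 : ℝ) ^ kB d s * 2 ^ y) ≤ 4 * cap d s y := by exact_mod_cast pow_kB_le hs d y
  have h3 := one_le_passC hs d
  unfold ctlC
  calc (2 : ℝ) ^ kB d s * passC d s * ((2 ^ aR d + s + y + 2 : ℕ) : ℝ) ^ c
      ≤ 2 ^ kB d s * passC d s * 2 ^ y := by gcongr
    _ = (2 ^ kB d s * 2 ^ y) * passC d s := by ring
    _ ≤ 4 * cap d s y * passC d s := by gcongr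
    _ = 4 * (cap d s y * passC d s) := by ring
    _ ≤ 4 * mainC A d s y := by
        have := cap_passC_le A d s y
        linarith

theorem bW_pos (d s y : ℕ) : 1 ≤ bW d s y := by
  have := wW_pos d s y
  unfold bW
  omega

theorem ell_pos (d s y : ℕ) : 1 ≤ ell d s y :=
  Nat.mul_pos (by positivity) (bW_pos d s y)

theorem one_le_bC (d s y : ℕ) : 1 ≤ bC d s y := by
  have := bW_pos d s y
  unfold bC
  omega

theorem bC_le (d s y : ℕ) : (bC d s y : ℝ) ≤ 2 * bW d s y := by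
  unfold bC
  push_cast
  exact le_rfl

theorem one_le_lC (d s y : ℕ) : 1 ≤ lC d s y := Nat.mul_pos (by omega) (by positivity)

theorem lC_le (d s y : ℕ) : (lC d s y : ℝ) ≤ 4 * ell d s y := by
  have h1 : lC d s y ≤ 4 * ell d s y := by
    have := bW_pos d s y
    unfold lC ell
    calc (3 * bW d s y + 1) * 2 ^ (y + 1) ≤ (4 * bW d s y) * 2 ^ (y + 1) := by gcongr; omega
      _ = 4 * (2 ^ (y + 1) * bW d s y) := by ring
  exact_mod_cast h1

theorem cap_le_mainC (A : MTM) {s : ℕ} (hs : 1 ≤ s) (d y : ℕ) :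
    (cap d s y : ℝ) ≤ mainC A d s y := by
  have h6 := cap_passC_le A d s y
  have h7 := one_le_passC hs d
  have h8 : (0 : ℝ) ≤ cap d s y := Nat.cast_nonneg _
  exact (le_mul_of_one_le_right h8 h7).trans h6

/-- The total cost. -/
theorem total_le {A : MTM} {C : ℝ} (hC : 0 < C) {c d s y C' x T : ℕ} (hs : 1 ≤ s)
    (h : (2 ^ aR d + s + y + 2) ^ c ≤ 2 ^ y) (h4 : (x : ℝ) ≤ C * (mainC A d s y + ctlC c d s y))
    (hT : T ≤ C' * (x + cap d s y)) : (T : ℝ) ≤ C' * (5 * C + 1) * mainC A d s y := by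
  have h5 := ctlC_le A hs h
  have h9 := cap_le_mainC A hs d y
  have h10 : (T : ℝ) ≤ C' * (x + cap d s y) := by exact_mod_cast hT
  have h0 : C * (mainC A d s y + ctlC c d s y) ≤ C * (5 * mainC A d s y) :=
    mul_le_mul_of_nonneg_left (by linarith) hC.le
  have h11 : (x : ℝ) + cap d s y ≤ (5 * C + 1) * mainC A d s y := by linarith
  have h13 := mul_le_mul_of_nonneg_left h11 (Nat.cast_nonneg (α := ℝ) C')
  linarith

/-- The normal form, for all ways to choose the number of digits. -/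
theorem exists_NF {A : MTM} {cst : P0 → ℕ} (h : Bd A cst) : ∃ E, 1 ≤ E ∧
    ∀ (B : MTM) (dn : ℕ → ℕ), (∀ n, 1 ≤ n → dn n = 0 ∨ capD E (dn n) ≤ n) →
      (∃ C : ℕ, ∀ n, 1 ≤ n →
        mulTime B n ≤ C * (cst (parD E (dn n) n) + capP (parD E (dn n) n))) →
      NF A B E sgB rtB (fun n => (dn n, sN E (dn n) n)) := by
  obtain ⟨C, c, hC, h⟩ := h
  obtain ⟨E, hE, hE2⟩ := exists_E c
  refine ⟨E, hE, ?_⟩
  rintro B dn hdn ⟨C', hB⟩
  obtain ⟨M, hMM⟩ : ∃ M : ℝ, ((2 * 2 ^ E * (E + 2) ^ 8 + capD E 0 : ℕ) : ℝ) = M := ⟨_, rfl⟩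
  have hM : 0 ≤ M := hMM ▸ Nat.cast_nonneg _
  obtain ⟨M', hM'⟩ : ∃ M' : ℝ, (C' : ℝ) * (5 * C + 1) = M' := ⟨_, rfl⟩
  have hM0' : 0 ≤ M' := hM' ▸ by positivity
  refine ⟨4 + M + M', 1, fun d s => d + s, fun d s => bC d s (yE E d s),
    fun d s => lC d s (yE E d s), by linarith, ?_⟩
  intro n hn d s y hds hy
  rw [Prod.mk.injEq] at hds
  obtain ⟨hd, hs⟩ := hds
  rw [hd] at hs
  have hs1 : d + 1 ≤ s := hs ▸ sN_ge E d n
  have hs2 : 1 ≤ s := by omega
  have hy1 : 1 ≤ y := hy ▸ yE_pos hE d s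
  refine ⟨hs2, ⟨Nat.le_add_right _ _, ?_⟩, ⟨one_le_bC _ _ _, ?_⟩, ⟨one_le_lC _ _ _, ?_⟩, ?_, ?_⟩
  · show (((d + s : ℕ)) : ℝ) ≤ _
    rw [pow_one, Nat.cast_add]
    have h0 : (0 : ℝ) ≤ (d : ℝ) + s + 1 := by positivity
    calc (d : ℝ) + s ≤ 1 * (d + s + 1) := by linarith
      _ ≤ _ := mul_le_mul_of_nonneg_right (by linarith) h0
  · show (bC d s (yE E d s) : ℝ) ≤ _
    rw [← hy]
    exact (bC_le d s y).trans (mul_le_mul_of_nonneg_right (by linarith) (Nat.cast_nonneg _))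
  · show (lC d s (yE E d s) : ℝ) ≤ _
    rw [← hy]
    exact (lC_le d s y).trans (mul_le_mul_of_nonneg_right (by linarith) (Nat.cast_nonneg _))
  · have h1 := capE_sN_le E n hn (hdn n hn)
    rw [hd, hs] at h1
    have h1' : (cap d s y : ℝ) ≤ M * n := by
      rw [← hMM, hy]
      exact_mod_cast h1
    exact h1'.trans (mul_le_mul_of_nonneg_right (by linarith) (Nat.cast_nonneg _))
  · have h1 := hB n hn
    have h2 : parD E (dn n) n = mkP d s y := by rw [hd, parD, hs, hy]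
    rw [h2] at h1
    have h5 : (2 ^ aR d + s + y + 2) ^ c ≤ 2 ^ y := by
      rw [hy]
      exact hE2 d s
    have h12 := total_le (A := A) hC hs2 h5 (h d s y hs1 hy1) (T := mulTime B n) (C' := C') h1
    rw [hM'] at h12
    have h14 : (0 : ℝ) ≤ mainC A d s y := (Nat.cast_nonneg _).trans (cap_le_mainC A hs2 d y)
    have h15 : (mulTime B n : ℝ) ≤ (4 + M + M') * mainC A d s y :=
      h12.trans (mul_le_mul_of_nonneg_right (by linarith) h14)
    rw [mainC, ← mul_assoc, hy] at h15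
    rw [hy]
    exact h15

/-- **Stage A.** -/
theorem stageForA {A : MTM} {cst : P0 → ℕ} (h : Bd A cst) : StageFor VP capP cst (StageA A) := by
  obtain ⟨E, hE, h⟩ := exists_NF h
  refine ⟨parA E, pt_parA E, pt_capP (pt_parA E), fun n _ => parA_mem hE n,
    fun n _ => le_capP_parA E n, fun B hB => ?_⟩
  exact stageA_of_best (fun n _ => rfl) (h B (fun _ => 0) (fun n _ => Or.inl rfl) hB)

theorem sN_le' (E : ℕ) : ∀ᶠ n in atTop,
    ((sN E (dN E n) n : ℕ) : ℝ) ≤ 100 * (E + 1) * (((dN E n : ℕ) : ℝ) ^ 2 + 1) :=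
  Eventually.of_forall fun n => by exact_mod_cast sN_le E n

theorem dN_ok (E n : ℕ) : dN E n = 0 ∨ capD E (dN E n) ≤ n := by
  rcases Nat.eq_zero_or_pos (dN E n) with h | h
  · exact Or.inl h
  · exact Or.inr (capD_dN E n h)

/-- **Stage B.** -/
theorem stageForB {A : MTM} {cst : P0 → ℕ} (h : Bd A cst) : StageFor VP capP cst (StageB A) := by
  obtain ⟨E, hE, h⟩ := exists_NF h
  refine ⟨parB E, pt_parB E, pt_capP (pt_parB E), fun n _ => parB_mem hE n,
    fun n _ => le_capP_parB E n, fun B hB => ?_⟩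
  have hNF : NF A B E sgB rtB (fun n => (dN E n, sN E (dN E n) n)) :=
    h B (dN E) (fun n _ => dN_ok E n) hB
  exact stageB_of_best (par := fun n => (dN E n, sN E (dN E n) n)) H651.hPI
    (c := 100 * ((E : ℝ) + 1)) (by positivity) (tendsto_dN E) (sN_le' E) hNF

/-- **The composition.**  It remains to construct the core program with a cost of the form `Bd`. -/
theorem fast_of_bd (hcore : ∀ A, Multiplies A → ∃ cst, Bd A cst ∧ HasCore VP capP cst) :
    ∃ A, Multiplies A ∧ FastAlways A :=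
  fast_of_core' hcore (fun _ _ _ h => stageForA h) (fun _ _ _ h => stageForB h)

end Vale.Agent.P338.R3.H121
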