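import Vale.Agent.P338.R3.H121.ParN
import Vale.Agent.P338.R3.H121.Lam
import Vale.Agent.P338.R3.H501.Rad2PT
import Vale.Agent.P338.R3.H968.Cell

/-!
P338-D, module PARAMS (3): the type of the parameters, the parameters of the cells, the choice of
the parameters as polynomial time functions.
-/

namespace Vale.Agent.P338.R3.H121

open Vale.Agent.Lib.PolyTime
open Vale.Agent.P338.R3.H501.Rad
open Vale.Agent.P338.R3.H968 (CPar)

/-- The parameters `(d, s, y)`. -/
abbrev P0 : Type := Un × Un × Un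

/-- The parameters with given values. -/
def mkP (d s y : ℕ) : P0 := (⟨d⟩, ⟨s⟩, ⟨y⟩)

/-- Number of digits. -/
abbrev pd (p : P0) : ℕ := p.1.v
/-- Number of selector bits. -/
abbrev ps (p : P0) : ℕ := p.2.1.v
/-- Logarithm of the number of coefficients. -/
abbrev py (p : P0) : ℕ := p.2.2.v

/-- Capacity. -/
def capP (p : P0) : ℕ := cap (pd p) (ps p) (py p)

/-- The parameters of the cells. -/
def cpar (d s y : ℕ) : CPar := ⟨bW d s y, 2 ^ y, sc d s y, wW d s y⟩

theorem cpar_ok (d s y : ℕ) : (cpar d s y).Ok where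
  hY := Nat.one_le_two_pow
  hw := wW_pos d s y
  hs := by
    show 1 ≤ sc d s y
    have := wW_pos d s y
    unfold sc
    omega
  hb := by
    show sc d s y + wW d s y + 1 ≤ bW d s y
    have := wW_pos d s y
    unfold sc bW
    omega
  hn := by
    show 2 * 2 ^ y ≤ 2 ^ bW d s y
    rw [← pow_succ']
    refine Nat.pow_le_pow_right (by norm_num) ?_
    have := y_le_wW (d := d) (s := s) y
    unfold bW
    omega

@[simp] theorem cpar_b (d s y : ℕ) : (cpar d s y).b = bW d s y := rfl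
@[simp] theorem cpar_Y (d s y : ℕ) : (cpar d s y).Y = 2 ^ y := rfl
@[simp] theorem cpar_s (d s y : ℕ) : (cpar d s y).s = sc d s y := rfl
@[simp] theorem cpar_w (d s y : ℕ) : (cpar d s y).w = wW d s y := rfl

theorem cpar_nw (d s y : ℕ) : (cpar d s y).nw = 2 ^ (y + 1) := by
  show 2 * 2 ^ y = _
  rw [pow_succ']

theorem cpar_ell (d s y : ℕ) : (cpar d s y).ell = ell d s y := by
  unfold CPar.ell ell
  rw [cpar_nw]
  rfl

section PT
variable {A : Set Word} {α : Type*} [Enc α] {d s y : α → ℕ}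

theorem pt_wW (hd : PT A d) (hs : PT A s) (hy : PT A y) :
    PT A (fun a => wW (d a) (s a) (y a)) := by
  unfold wW
  fun_prop

theorem pbd_wW (hd : PBd d) (hs : PBd s) (hy : PBd y) :
    PBd (fun a => wW (d a) (s a) (y a)) := by
  unfold wW
  fun_prop

theorem pt_bW (hd : PT A d) (hs : PT A s) (hy : PT A y) :
    PT A (fun a => bW (d a) (s a) (y a)) :=
  PT.mul (PT.const 64) (pt_wW hd hs hy)

theorem pbd_bW (hd : PBd d) (hs : PBd s) (hy : PBd y) :
    PBd (fun a => bW (d a) (s a) (y a)) :=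
  PBd.mul (PBd.const 64) (pbd_wW hd hs hy)

theorem pt_sc (hd : PT A d) (hs : PT A s) (hy : PT A y) :
    PT A (fun a => sc (d a) (s a) (y a)) :=
  PT.mul (PT.const 16) (pt_wW hd hs hy)

theorem pbd_sc (hd : PBd d) (hs : PBd s) (hy : PBd y) :
    PBd (fun a => sc (d a) (s a) (y a)) :=
  PBd.mul (PBd.const 16) (pbd_wW hd hs hy)

theorem pt_yE (E : ℕ) (hd : PT A d) (hs : PT A s) : PT A (fun a => yE E (d a) (s a)) := by
  unfold yE
  exact PT.mul (PT.const E) (PT.add (pt_aR hd) (PT.natSize hs))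

theorem pbd_yE (E : ℕ) (hd : PBd d) (hs : PBd s) : PBd (fun a => yE E (d a) (s a)) := by
  have h : PBd (fun a => E * (aR (d a) + s a)) :=
    PBd.mul (PBd.const E) (PBd.add (pbd_aR hd) hs)
  refine h.mono fun a => ?_
  unfold yE
  apply Nat.mul_le_mul_left
  have : Nat.size (s a) ≤ s a := by
    rw [Nat.size_le]
    exact Nat.lt_two_pow_self
  omega

theorem pt_cap (hd : PT A d) (hs : PT A s) (hy : PT A y) (bd : PBd d) (bs : PBd s) (by' : PBd y) :
    PT A (fun a => cap (d a) (s a) (y a)) := by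
  unfold cap
  refine PT.mul (PT.mul (PT.mul ?_ (pt_NR hd bd)) ?_) (pt_wW hd hs hy)
  · exact PT.pow (PT.const 2) (PT.sub hs (PT.const 1)) (bs.mono fun a => Nat.sub_le _ _)
  · exact PT.pow (PT.const 2) hy by'

theorem pt_capE (E : ℕ) (hd : PT A d) (hs : PT A s) (bd : PBd d) (bs : PBd s) :
    PT A (fun a => capE E (d a) (s a)) :=
  pt_cap hd hs (pt_yE E hd hs) bd bs (pbd_yE E bd bs)

end PT

section choice
variable {A : Set Word} {α : Type*} [Enc α] {n : α → ℕ}

theorem pbd_size (hn : PT A n) : PBd (fun a => Nat.size (n a)) := by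
  refine hn.pbd.mono fun a => ?_
  show Nat.size (n a) ≤ (enc (n a)).length
  rw [enc_nat, Nat.size_eq_bits_len]

theorem dN_le (E n : ℕ) : dN E n ≤ Nat.size n := by
  unfold dN
  exact (List.length_filter_le _ _).trans (by simp)

theorem sN_le_size (E d n : ℕ) : sN E d n ≤ d + 1 + Nat.size n := by
  unfold sN
  exact Nat.add_le_add_left ((List.length_filter_le _ _).trans (by simp)) _

/-- Filtering an initial segment. -/
theorem pt_filter_range {k : α → ℕ} {p : α → ℕ → Bool} (hk : PT A k) (bk : PBd k)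
    (hp : PT A (fun q : α × ℕ => p q.1 (Min.min q.2 (k q.1)))) :
    PT A (fun a => ((List.range (k a)).filter (p a)).length) := by
  refine (PT.length (PT.filter (f := fun a i => p a (Min.min i (k a))) (PT.range hk bk) hp)).congr
    fun a => ?_
  congr 1
  refine List.filter_congr fun i hi => ?_
  rw [min_eq_left (List.mem_range.1 hi).le]

theorem pt_dN (E : ℕ) (hn : PT A n) : PT A (fun a => dN E (n a)) := by
  unfold dN capD
  have h1 : PT A (fun p : α × ℕ => Min.min p.2 (Nat.size (n p.1))) :=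
    PT.min PT.snd' (PT.natSize (hn.comp PT.fst'))
  have h2 : PBd (fun p : α × ℕ => Min.min p.2 (Nat.size (n p.1))) :=
    ((pbd_size (hn.comp PT.fst')).mono fun p => min_le_right _ _)
  refine pt_filter_range (p := fun a i => decide (capE E (i + 1) (i + 1 + 1) ≤ n a))
    (PT.natSize hn) (pbd_size hn) ?_
  exact PT.le (pt_capE E (PT.add h1 (PT.const 1)) (PT.add (PT.add h1 (PT.const 1)) (PT.const 1))
    (PBd.add h2 (PBd.const 1)) (PBd.add (PBd.add h2 (PBd.const 1)) (PBd.const 1)))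
    (hn.comp PT.fst')

theorem pt_sN (E : ℕ) {d : α → ℕ} (hd : PT A d) (bd : PBd d) (hn : PT A n) :
    PT A (fun a => sN E (d a) (n a)) := by
  unfold sN
  have h1 : PT A (fun p : α × ℕ => Min.min p.2 (Nat.size (n p.1))) :=
    PT.min PT.snd' (PT.natSize (hn.comp PT.fst'))
  have h2 : PBd (fun p : α × ℕ => Min.min p.2 (Nat.size (n p.1))) :=
    ((pbd_size (hn.comp PT.fst')).mono fun p => min_le_right _ _)
  have h3 : PT A (fun p : α × ℕ => d p.1) := hd.comp PT.fst'
  have h4 : PBd (fun p : α × ℕ => d p.1) := bd.comp (PT.fst' (A := A))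
  refine PT.add (PT.add hd (PT.const 1)) (pt_filter_range
    (p := fun a j => decide (capE E (d a) (d a + 1 + j) < n a)) (PT.natSize hn) (pbd_size hn) ?_)
  exact PT.lt (pt_capE E h3 (PT.add (PT.add h3 (PT.const 1)) h1) h4
    (PBd.add (PBd.add h4 (PBd.const 1)) h2)) (hn.comp PT.fst')

theorem pbd_dN (E : ℕ) (hn : PT A n) : PBd (fun a => dN E (n a)) :=
  (pbd_size hn).mono fun a => dN_le E (n a)

theorem pbd_sN (E : ℕ) {d : α → ℕ} (bd : PBd d) (hn : PT A n) :
    PBd (fun a => sN E (d a) (n a)) :=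
  (PBd.add (PBd.add bd (PBd.const 1)) (pbd_size hn)).mono fun a => sN_le_size E (d a) (n a)

theorem pt_mkP {d s y : α → ℕ} (hd : PT A d) (hs : PT A s) (hy : PT A y) (bd : PBd d) (bs : PBd s)
    (by' : PBd y) : PT A (fun a => mkP (d a) (s a) (y a)) :=
  PT.pair (PT.mkUn hd bd) (PT.pair (PT.mkUn hs bs) (PT.mkUn hy by'))

end choice

/-- The parameters with `d` digits for operands of `n` bits. -/
def parD (E d n : ℕ) : P0 := mkP d (sN E d n) (yE E d (sN E d n))

/-- The parameters of the stages without digits. -/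
def parA (E n : ℕ) : P0 := parD E 0 n

/-- The parameters of the last stage. -/
def parB (E n : ℕ) : P0 := parD E (dN E n) n

theorem pt_parD {A : Set Word} {α : Type*} [Enc α] (E : ℕ) {d n : α → ℕ} (hd : PT A d)
    (bd : PBd d) (hn : PT A n) : PT A (fun a => parD E (d a) (n a)) := by
  unfold parD
  have h1 := pt_sN E hd bd hn
  have h2 := pbd_sN E bd hn
  exact pt_mkP hd h1 (pt_yE E hd h1) bd h2 (pbd_yE E bd h2)

theorem pt_parA (E : ℕ) : PT ∅ (parA E) := pt_parD E (PT.const 0) (PBd.const 0) PT.id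

theorem pt_parB (E : ℕ) : PT ∅ (parB E) := pt_parD E (pt_dN E PT.id) (pbd_dN E (PT.id (A := ∅))) PT.id

theorem pt_capP {A : Set Word} {α : Type*} [Enc α] {p : α → P0} (hp : PT A p) :
    PT A (fun a => capP (p a)) := by
  unfold capP
  have h1 : PT A (fun a => (p a).1) := hp.fst
  have h2 : PT A (fun a => (p a).2.1) := hp.snd.fst
  have h3 : PT A (fun a => (p a).2.2) := hp.snd.snd
  exact pt_cap (PT.unVal h1) (PT.unVal h2) (PT.unVal h3) (PBd.unVal h1) (PBd.unVal h2)
    (PBd.unVal h3)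

theorem capP_parD (E d n : ℕ) : capP (parD E d n) = capE E d (sN E d n) := rfl

theorem le_capP_parA (E n : ℕ) : n ≤ capP (parA E n) := le_capE_sN E 0 n
theorem le_capP_parB (E n : ℕ) : n ≤ capP (parB E n) := le_capE_sN E (dN E n) n

theorem capP_parA_le (E n : ℕ) (hn : 1 ≤ n) :
    capP (parA E n) ≤ (2 * 2 ^ E * (E + 2) ^ 8 + capD E 0) * n :=
  capE_sN_le E n hn (Or.inl rfl)

theorem capP_parB_le (E n : ℕ) (hn : 1 ≤ n) :
    capP (parB E n) ≤ (2 * 2 ^ E * (E + 2) ^ 8 + capD E 0) * n := by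
  refine capE_sN_le E n hn ?_
  rcases Nat.eq_zero_or_pos (dN E n) with h | h
  · exact Or.inl h
  · exact Or.inr (capD_dN E n h)

/-- The admissible parameters. -/
def VP : Set P0 := {p | pd p + 1 ≤ ps p ∧ 1 ≤ py p}

theorem yE_pos {E : ℕ} (hE : 1 ≤ E) (d s : ℕ) : 1 ≤ yE E d s := by
  unfold yE aR
  exact Nat.mul_pos hE (by omega)

theorem parD_mem {E : ℕ} (hE : 1 ≤ E) (d n : ℕ) : parD E d n ∈ VP :=
  ⟨sN_ge E d n, yE_pos hE d _⟩

theorem parA_mem {E : ℕ} (hE : 1 ≤ E) (n : ℕ) : parA E n ∈ VP := parD_mem hE 0 n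
theorem parB_mem {E : ℕ} (hE : 1 ≤ E) (n : ℕ) : parB E n ∈ VP := parD_mem hE _ n

theorem tendsto_dN (E : ℕ) : Filter.Tendsto (dN E) Filter.atTop Filter.atTop :=
  Filter.tendsto_atTop.2 fun D => Filter.eventually_atTop.2 ⟨capD E D, fun _ hn => le_dN hn⟩

end Vale.Agent.P338.R3.H121
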