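import Vale.Agent.P338.R3.H121.Params

/-!
P338-D, module PARAMS (2): the choice of the parameters for operands of `n` bits.
-/

namespace Vale.Agent.P338.R3.H121

open Vale.Agent.P338.R3.H501.Rad

/-- The capacity with the chosen `y`. -/
def capE (E d s : ℕ) : ℕ := cap d s (yE E d s)

theorem wW_mono {d s y d' s' y' : ℕ} (h : d + s + y ≤ d' + s' + y') : wW d s y ≤ wW d' s' y' := by
  unfold wW
  exact Nat.mul_le_mul_left _ (Nat.pow_le_pow_left (by omega) 8)

theorem yE_mono_s (E d : ℕ) {s s' : ℕ} (h : s ≤ s') : yE E d s ≤ yE E d s' := by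
  unfold yE
  exact Nat.mul_le_mul_left _ (Nat.add_le_add_left (Nat.size_le_size h) _)

theorem yE_succ_le (E d s : ℕ) : yE E d (s + 1) ≤ yE E d s + E := by
  unfold yE
  have h : Nat.size (s + 1) ≤ Nat.size s + 1 := by
    rw [Nat.size_le]
    have := Nat.lt_size_self s
    rw [pow_succ]
    omega
  calc E * (aR d + Nat.size (s + 1)) ≤ E * (aR d + Nat.size s + 1) :=
        Nat.mul_le_mul_left _ (by omega)
    _ = _ := by ring

theorem mul4_lt {s N Y Y' W W' : ℕ} (hN : 0 < N) (hW : 0 < W) (hY0 : 0 < Y) (hY : Y ≤ Y')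
    (h : W ≤ W') : 2 ^ s * N * Y * W < 2 ^ (s + 1) * N * Y' * W' := by
  have h1 : 0 < 2 ^ s * N * Y * W := by positivity
  calc 2 ^ s * N * Y * W < 2 * (2 ^ s * N * Y * W) := by omega
    _ = 2 ^ (s + 1) * N * Y * W := by rw [pow_succ]; ring
    _ ≤ _ := Nat.mul_le_mul (Nat.mul_le_mul_left _ hY) h

theorem capE_lt_succ (E d : ℕ) {s : ℕ} (hs : 1 ≤ s) : capE E d s < capE E d (s + 1) := by
  unfold capE cap
  obtain ⟨s, rfl⟩ := Nat.exists_eq_add_of_le' hs
  rw [Nat.add_sub_cancel, Nat.add_sub_cancel]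
  have h0 := yE_mono_s E d (Nat.le_succ (s + 1))
  have h1 : wW d (s + 1) (yE E d (s + 1)) ≤ wW d (s + 1 + 1) (yE E d (s + 1 + 1)) :=
    wW_mono (by simp only [Nat.succ_eq_add_one] at h0; omega)
  exact mul4_lt (NR_pos d) (wW_pos _ _ _) (by positivity)
    (Nat.pow_le_pow_right (by norm_num) h0) h1

theorem capE_strictMono (E d : ℕ) {s s' : ℕ} (hs : 1 ≤ s) (h : s < s') :
    capE E d s < capE E d s' := by
  induction s', h using Nat.le_induction with
  | base => exact capE_lt_succ E d hs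
  | succ t ht ih => exact ih.trans (capE_lt_succ E d (by omega))

theorem capE_mono (E d : ℕ) {s s' : ℕ} (hs : 1 ≤ s) (h : s ≤ s') : capE E d s ≤ capE E d s' := by
  rcases h.eq_or_lt with h | h
  · rw [h]
  · exact (capE_strictMono E d hs h).le

theorem pow_le_capE (E d s : ℕ) : 2 ^ s ≤ capE E d s := by
  unfold capE cap
  have h1 : 1024 ≤ wW d s (yE E d s) := by
    unfold wW
    have : 1 ≤ (d + s + yE E d s + 4) ^ 8 := Nat.one_le_pow _ _ (by omega)
    omega
  have h2 : 2 ^ s ≤ 2 ^ (s - 1) * 2 := by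
    rw [← pow_succ]
    exact Nat.pow_le_pow_right (by norm_num) (by omega)
  calc 2 ^ s ≤ 2 ^ (s - 1) * 2 := h2
    _ = 2 ^ (s - 1) * 1 * 1 * 2 := by ring
    _ ≤ 2 ^ (s - 1) * NR d * 2 ^ yE E d s * wW d s (yE E d s) := by
        have := NR_pos d
        have h3 : 1 ≤ 2 ^ yE E d s := Nat.one_le_two_pow
        gcongr <;> omega

/-- The capacities are dense in `s`. -/
theorem capE_succ_le (E d : ℕ) {s : ℕ} (hs : 1 ≤ s) :
    capE E d (s + 1) ≤ 2 * 2 ^ E * (E + 2) ^ 8 * capE E d s := by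
  obtain ⟨s, rfl⟩ := Nat.exists_eq_add_of_le' hs
  unfold capE cap
  rw [Nat.add_sub_cancel, Nat.add_sub_cancel]
  have h2 : 2 ^ yE E d (s + 1 + 1) ≤ 2 ^ yE E d (s + 1) * 2 ^ E := by
    rw [← pow_add]
    exact Nat.pow_le_pow_right (by norm_num) (yE_succ_le E d (s + 1))
  have h1 : wW d (s + 1 + 1) (yE E d (s + 1 + 1)) ≤ (E + 2) ^ 8 * wW d (s + 1) (yE E d (s + 1)) := by
    unfold wW
    have h3 : d + (s + 1 + 1) + yE E d (s + 1 + 1) + 4 ≤ (E + 2) * (d + (s + 1) + yE E d (s + 1) + 4) := by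
      have := yE_succ_le E d (s + 1)
      nlinarith
    calc 2 ^ 10 * (d + (s + 1 + 1) + yE E d (s + 1 + 1) + 4) ^ 8
        ≤ 2 ^ 10 * ((E + 2) * (d + (s + 1) + yE E d (s + 1) + 4)) ^ 8 := by gcongr
      _ = _ := by rw [mul_pow]; ring
  calc 2 ^ (s + 1) * NR d * 2 ^ yE E d (s + 1 + 1) * wW d (s + 1 + 1) (yE E d (s + 1 + 1))
      ≤ 2 ^ (s + 1) * NR d * (2 ^ yE E d (s + 1) * 2 ^ E) *
        ((E + 2) ^ 8 * wW d (s + 1) (yE E d (s + 1))) := by gcongr
    _ = _ := by rw [pow_succ]; ring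

/-! ### monotone in `d` -/

theorem aR_mul_succ (d : ℕ) : aR d * d + 1 ≤ aR (d + 1) * (d + 1) := by
  unfold aR
  nlinarith

theorem NR_le_succ (d : ℕ) : NR d ≤ NR (d + 1) := by
  have h1 := NR_le_pow d
  have h2 := pow_le_NR (d + 1)
  have h3 : 2 * 2 ^ (aR d * d) ≤ 2 ^ (aR (d + 1) * (d + 1)) := by
    rw [← pow_succ']
    exact Nat.pow_le_pow_right (by norm_num) (aR_mul_succ d)
  omega

theorem yE_mono_d (E : ℕ) {d d' s s' : ℕ} (hd : d ≤ d') (hs : s ≤ s') : yE E d s ≤ yE E d' s' := by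
  unfold yE aR
  apply Nat.mul_le_mul_left
  have h1 : d ^ 2 ≤ d' ^ 2 := Nat.pow_le_pow_left hd 2
  have h2 := Nat.size_le_size hs
  omega

/-- The least capacity with `d` digits. -/
def capD (E d : ℕ) : ℕ := capE E d (d + 1)

theorem capD_le_succ (E d : ℕ) : capD E d ≤ capD E (d + 1) := by
  unfold capD capE cap
  have h1 := NR_le_succ d
  have h2 : yE E d (d + 1) ≤ yE E (d + 1) (d + 1 + 1) := yE_mono_d E (by omega) (by omega)
  have h3 : wW d (d + 1) (yE E d (d + 1)) ≤ wW (d + 1) (d + 1 + 1) (yE E (d + 1) (d + 1 + 1)) :=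
    wW_mono (by omega)
  have h4 : 2 ^ (d + 1 - 1) ≤ 2 ^ (d + 1 + 1 - 1) := Nat.pow_le_pow_right (by norm_num) (by omega)
  gcongr
  norm_num

theorem capD_mono (E : ℕ) {d d' : ℕ} (h : d ≤ d') : capD E d ≤ capD E d' :=
  monotone_nat_of_le_succ (capD_le_succ E) h

/-! ### the choice -/

/-- The number of initial elements with a downward closed property. -/
theorem filter_range {p : ℕ → Bool} (hp : ∀ i, p (i + 1) = true → p i = true) (N : ℕ) :
    ((List.range N).filter p).length ≤ N ∧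
      ∀ i < N, (p i = true ↔ i < ((List.range N).filter p).length) := by
  have hall : ∀ k i, i ≤ k → p k = true → p i = true := by
    intro k i hik h
    induction k, hik using Nat.le_induction with
    | base => exact h
    | succ t _ ih => exact ih (hp t h)
  induction N with
  | zero => simp
  | succ N ih =>
    rw [List.range_succ, List.filter_append, List.length_append]
    by_cases h : p N = true
    · have hf : ((List.range N).filter p).length = N := by
        rw [List.filter_eq_self.2, List.length_range]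
        intro i hi
        exact hall N i (List.mem_range.1 hi).le h
      have h1 : (List.filter p [N]).length = 1 := by simp [h]
      rw [hf, h1]
      refine ⟨le_rfl, fun i hi => ⟨fun _ => hi, fun _ => hall N i (by omega) h⟩⟩
    · have h1 : (List.filter p [N]).length = 0 := by simp [h]
      rw [h1, Nat.add_zero]
      refine ⟨by omega, fun i hi => ?_⟩
      rcases Nat.lt_succ_iff_lt_or_eq.1 hi with hi | rfl
      · exact ih.2 i hi
      · constructor
        · intro h'; exact absurd h' h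
        · intro h'; have := ih.1; omega

/-- The number of digits. -/
def dN (E n : ℕ) : ℕ := ((List.range (Nat.size n)).filter fun i => decide (capD E (i + 1) ≤ n)).length

/-- The number of selector bits. -/
def sN (E d n : ℕ) : ℕ :=
  d + 1 + ((List.range (Nat.size n)).filter fun j => decide (capE E d (d + 1 + j) < n)).length

theorem lt_two_pow_size (n : ℕ) : n < 2 ^ Nat.size n := Nat.lt_size_self n

theorem capD_dN (E n : ℕ) (h : 1 ≤ dN E n) : capD E (dN E n) ≤ n := by
  have hf := filter_range (p := fun i => decide (capD E (i + 1) ≤ n)) (fun i hi => by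
    simp only [decide_eq_true_eq] at hi ⊢
    exact (capD_mono E (Nat.le_succ _)).trans hi) (Nat.size n)
  have h1 : dN E n - 1 < Nat.size n := by
    have := hf.1
    unfold dN at h ⊢
    omega
  have h2 := (hf.2 (dN E n - 1) h1).2 (by unfold dN at h ⊢; omega)
  simp only [decide_eq_true_eq] at h2
  rwa [Nat.sub_add_cancel h] at h2

theorem lt_capD_dN (E n : ℕ) : n < capD E (dN E n + 1) := by
  have hf := filter_range (p := fun i => decide (capD E (i + 1) ≤ n)) (fun i hi => by
    simp only [decide_eq_true_eq] at hi ⊢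
    exact (capD_mono E (Nat.le_succ _)).trans hi) (Nat.size n)
  rcases hf.1.lt_or_eq with h | h
  · have h2 := (hf.2 _ h).not.2 (lt_irrefl _)
    simp only [decide_eq_true_eq, not_le] at h2
    exact h2
  · unfold dN
    rw [h]
    calc n < 2 ^ Nat.size n := lt_two_pow_size n
      _ ≤ 2 ^ (Nat.size n + 1 + 1) := Nat.pow_le_pow_right (by norm_num) (by omega)
      _ ≤ _ := pow_le_capE E _ _

theorem le_capE_sN (E d n : ℕ) : n ≤ capE E d (sN E d n) := by
  have hf := filter_range (p := fun j => decide (capE E d (d + 1 + j) < n)) (fun i hi => by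
    simp only [decide_eq_true_eq] at hi ⊢
    exact (capE_mono E d (by omega) (by omega)).trans_lt hi) (Nat.size n)
  rcases hf.1.lt_or_eq with h | h
  · have h2 := (hf.2 _ h).not.2 (lt_irrefl _)
    simp only [decide_eq_true_eq, not_lt] at h2
    exact h2
  · unfold sN
    rw [h]
    calc n ≤ 2 ^ Nat.size n := (lt_two_pow_size n).le
      _ ≤ 2 ^ (d + 1 + Nat.size n) := Nat.pow_le_pow_right (by norm_num) (by omega)
      _ ≤ _ := pow_le_capE E _ _

theorem sN_ge (E d n : ℕ) : d + 1 ≤ sN E d n := by unfold sN; omega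

/-- Either `s` is minimal or the previous capacity is too small. -/
theorem capE_pred_sN (E d n : ℕ) (h : d + 1 < sN E d n) : capE E d (sN E d n - 1) < n := by
  have hf := filter_range (p := fun j => decide (capE E d (d + 1 + j) < n)) (fun i hi => by
    simp only [decide_eq_true_eq] at hi ⊢
    exact (capE_mono E d (by omega) (by omega)).trans_lt hi) (Nat.size n)
  set k := ((List.range (Nat.size n)).filter fun j => decide (capE E d (d + 1 + j) < n)).length
    with hk
  have hs : sN E d n = d + 1 + k := rfl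
  have h1 : k - 1 < Nat.size n := by omega
  have h2 := (hf.2 (k - 1) h1).2 (by omega)
  simp only [decide_eq_true_eq] at h2
  rwa [hs, show d + 1 + k - 1 = d + 1 + (k - 1) by omega]

/-- The capacity is at most a constant times `n`. -/
theorem capE_sN_le (E n : ℕ) (hn : 1 ≤ n) {d : ℕ} (hd : d = 0 ∨ capD E d ≤ n) :
    capE E d (sN E d n) ≤ (2 * 2 ^ E * (E + 2) ^ 8 + capD E 0) * n := by
  rcases (sN_ge E d n).lt_or_eq with h | h
  · have h1 := capE_pred_sN E d n h
    have h2 := capE_succ_le E d (s := sN E d n - 1) (by omega)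
    rw [show sN E d n - 1 + 1 = sN E d n by omega] at h2
    refine h2.trans ?_
    have h3 : 2 * 2 ^ E * (E + 2) ^ 8 * capE E d (sN E d n - 1) ≤ 2 * 2 ^ E * (E + 2) ^ 8 * n :=
      Nat.mul_le_mul_left _ h1.le
    rw [Nat.add_mul]
    omega
  · rw [← h]
    rcases hd with rfl | hd
    · show capD E 0 ≤ _
      calc capD E 0 = capD E 0 * 1 := (mul_one _).symm
        _ ≤ capD E 0 * n := Nat.mul_le_mul_left _ hn
        _ ≤ _ := by rw [Nat.add_mul]; omega
    · show capD E d ≤ _
      refine hd.trans ?_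
      have h4 : 0 < 2 * 2 ^ E * (E + 2) ^ 8 := by positivity
      calc n = 1 * n := (one_mul n).symm
        _ ≤ _ := Nat.mul_le_mul_right _ (by omega)

/-! ### growth -/

theorem le_dN {E n D : ℕ} (h : capD E D ≤ n) : D ≤ dN E n := by
  by_contra h1
  have h2 := lt_capD_dN E n
  have h3 := capD_mono E (d := dN E n + 1) (d' := D) (by omega)
  omega

theorem two_mul_capE (E d s : ℕ) : 2 ^ (s - 1 + aR d * d + yE E d s) ≤ 2 * capE E d s := by
  unfold capE cap
  have h1 := pow_le_NR d
  have h2 := wW_pos d s (yE E d s)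
  calc 2 ^ (s - 1 + aR d * d + yE E d s) = 2 ^ (s - 1) * 2 ^ (aR d * d) * 2 ^ yE E d s * 1 := by
        rw [pow_add, pow_add]; ring
    _ ≤ 2 ^ (s - 1) * (2 * NR d) * 2 ^ yE E d s * wW d s (yE E d s) := by
        gcongr
        exact h2
    _ = _ := by ring

theorem wW_le_pow (E d : ℕ) : wW (d + 1) (d + 2) (yE E (d + 1) (d + 2)) ≤ 2 ^ (42 + 8 * E + 16 * d) := by
  have h1 : yE E (d + 1) (d + 2) ≤ E * (d + 3) ^ 2 := by
    unfold yE aR
    apply Nat.mul_le_mul_left
    have h2 : Nat.size (d + 2) ≤ d + 2 := by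
      rw [Nat.size_le]
      exact Nat.lt_two_pow_self
    nlinarith
  have h3 : d + 1 + (d + 2) + yE E (d + 1) (d + 2) + 4 ≤ (E + 1) * (d + 3) ^ 2 := by
    nlinarith
  have h4 : E + 1 ≤ 2 ^ E := Nat.lt_two_pow_self
  have h5 : d + 3 ≤ 2 ^ (d + 2) := by
    have : d + 2 < 2 ^ (d + 2) := Nat.lt_two_pow_self
    omega
  unfold wW
  calc 2 ^ 10 * (d + 1 + (d + 2) + yE E (d + 1) (d + 2) + 4) ^ 8
      ≤ 2 ^ 10 * (2 ^ E * (2 ^ (d + 2)) ^ 2) ^ 8 := by
        apply Nat.mul_le_mul_left
        apply Nat.pow_le_pow_left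
        exact h3.trans (Nat.mul_le_mul h4 (Nat.pow_le_pow_left h5 2))
    _ = 2 ^ (10 + (E + (d + 2) * 2) * 8) := by
        rw [← pow_mul 2 (d + 2) 2, ← pow_add, ← pow_mul, ← pow_add]
    _ = _ := by congr 1; ring

theorem capD_succ_le (E d : ℕ) :
    capD E (d + 1) ≤ 2 ^ (d + 1 + aR (d + 1) * (d + 1) + yE E (d + 1) (d + 2) +
      (42 + 8 * E + 16 * d)) := by
  unfold capD capE cap
  rw [show d + 1 + 1 - 1 = d + 1 by omega, show d + 1 + 1 = d + 2 by omega]
  calc 2 ^ (d + 1) * NR (d + 1) * 2 ^ yE E (d + 1) (d + 2) *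
        wW (d + 1) (d + 2) (yE E (d + 1) (d + 2))
      ≤ 2 ^ (d + 1) * 2 ^ (aR (d + 1) * (d + 1)) * 2 ^ yE E (d + 1) (d + 2) *
        2 ^ (42 + 8 * E + 16 * d) :=
        Nat.mul_le_mul (Nat.mul_le_mul_right _ (Nat.mul_le_mul_left _ (NR_le_pow (d + 1))))
          (wW_le_pow E d)
    _ = _ := by rw [← pow_add, ← pow_add, ← pow_add]

/-- The number of selector bits is at most quadratic in the number of digits. -/
theorem sN_le (E n : ℕ) : sN E (dN E n) n ≤ 100 * (E + 1) * (dN E n ^ 2 + 1) := by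
  set d := dN E n with hd
  rcases (sN_ge E d n).lt_or_eq with h | h
  · set S := sN E d n - 1 with hS
    have h1 := capE_pred_sN E d n h
    have h2 : capE E d S < capD E (d + 1) := h1.trans (lt_capD_dN E n)
    have h3 := two_mul_capE E d S
    have h4 := capD_succ_le E d
    have h5 : 2 ^ (S - 1 + aR d * d + yE E d S) ≤ 2 ^ (d + 1 + aR (d + 1) * (d + 1) +
        yE E (d + 1) (d + 2) + (42 + 8 * E + 16 * d) + 1) := by
      rw [pow_succ]
      omega
    have h6 := (Nat.pow_le_pow_iff_right (by norm_num : 1 < 2)).1 h5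
    have h7 : yE E (d + 1) (d + 2) ≤ yE E d S + E * (3 * d + 3) := by
      unfold yE
      rw [← Nat.mul_add]
      apply Nat.mul_le_mul_left
      have h8 : Nat.size (d + 2) ≤ d + 2 := by
        rw [Nat.size_le]
        exact Nat.lt_two_pow_self
      unfold aR
      nlinarith
    have h9 : aR (d + 1) * (d + 1) = aR d * d + (3 * d ^ 2 + 3 * d + 4) := by
      unfold aR; ring
    have h10 : S ≤ 3 * d ^ 2 + 20 * d + 60 + E * (3 * d + 11) := by
      rw [h9] at h6
      have h11 : E * (3 * d + 11) = E * (3 * d + 3) + 8 * E := by ring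
      omega
    have h12 : sN E d n = S + 1 := by omega
    rw [h12]
    nlinarith [Nat.zero_le E, Nat.zero_le (E * d ^ 2), Nat.zero_le (E * d), sq_nonneg ((d : ℤ) - 1),
      h10, mul_self_nonneg (d - 1 : ℤ)]
  · rw [← h]
    nlinarith [Nat.zero_le E, Nat.zero_le (E * d ^ 2)]

end Vale.Agent.P338.R3.H121
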