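import Vale.Agent.P338.R3.H501.Rad2

/-!
P338-D, module PARAMS: the parameters `(d, s, y)` of the multiplication core, and their
inequalities.

`d` digits with radix `2 ^ aR d`, `s` selector bits, words of `bW` bits, `2 * 2 ^ y` words in a
cell, `wW` bits of the operands in a coefficient.
-/

namespace Vale.Agent.P338.R3.H121

open Vale.Agent.P338.R3.H501.Rad

/-- Payload of a coefficient (bits). -/
def wW (d s y : ℕ) : ℕ := 2 ^ 10 * (d + s + y + 4) ^ 8

/-- Length of a word. -/
def bW (d s y : ℕ) : ℕ := 64 * wW d s y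

/-- Length of a cell. -/
def ell (d s y : ℕ) : ℕ := 2 ^ (y + 1) * bW d s y

/-- Number of the index bits (without the two lowest ones). -/
def kB (d s : ℕ) : ℕ := s + aR d * d

/-- Number of cells. -/
def nC (d s : ℕ) : ℕ := 2 ^ (kB d s + 2)

/-- The capacity: operands of `cap d s y` bits. -/
def cap (d s y : ℕ) : ℕ := 2 ^ (s - 1) * NR d * 2 ^ y * wW d s y

/-- The choice of `y`. -/
def yE (E d s : ℕ) : ℕ := E * (aR d + Nat.size s)

theorem wW_pos (d s y : ℕ) : 0 < wW d s y := by unfold wW; positivity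

theorem cap_pos (d s y : ℕ) : 0 < cap d s y := by
  unfold cap
  have := wW_pos d s y
  have := NR_pos d
  positivity

theorem pow_le_NR (d : ℕ) : 2 ^ (aR d * d) ≤ 2 * NR d := by
  rcases Nat.eq_zero_or_pos d with rfl | hd
  · simp [NR]
  · rw [pow_mul]; exact le_NR hd

theorem NR_le_pow (d : ℕ) : NR d ≤ 2 ^ (aR d * d) := by
  rw [pow_mul]; exact NR_le d

/-- The total length of all cells is at most a constant times the length of the operands. -/
theorem cells_le {s : ℕ} (hs : 1 ≤ s) (d y : ℕ) : nC d s * ell d s y ≤ 2048 * cap d s y := by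
  obtain ⟨s, rfl⟩ := Nat.exists_eq_add_of_le' hs
  have h := pow_le_NR d
  unfold nC ell bW cap kB
  rw [Nat.add_sub_cancel]
  calc 2 ^ (s + 1 + aR d * d + 2) * (2 ^ (y + 1) * (64 * wW d (s + 1) y))
      = 2 ^ (aR d * d) * (1024 * (2 ^ s * 2 ^ y * wW d (s + 1) y)) := by ring
    _ ≤ (2 * NR d) * (1024 * (2 ^ s * 2 ^ y * wW d (s + 1) y)) := by gcongr
    _ = _ := by ring

/-- The exponent `E` after the exponent of the control. -/
theorem exists_E (c : ℕ) : ∃ E, 1 ≤ E ∧ ∀ d s, 
    (2 ^ aR d + s + yE E d s + 2) ^ c ≤ 2 ^ yE E d s := by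
  refine ⟨2 ^ (c + 3), Nat.one_le_two_pow, fun d s => ?_⟩
  set t := aR d + Nat.size s with ht
  have h4 : 3 ≤ t := by
    have : 3 ≤ aR d := by unfold aR; omega
    omega
  have hs : s < 2 ^ Nat.size s := Nat.lt_size_self s
  have h1 : (2 : ℕ) ^ aR d ≤ 2 ^ t := Nat.pow_le_pow_right (by norm_num) (by omega)
  have h2 : (2 : ℕ) ^ Nat.size s ≤ 2 ^ t := Nat.pow_le_pow_right (by norm_num) (by omega)
  have h3 : t + 1 ≤ 2 ^ t := Nat.lt_two_pow_self
  have hy : yE (2 ^ (c + 3)) d s = 2 ^ (c + 3) * t := rfl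
  have h5 : 2 ^ aR d + s + yE (2 ^ (c + 3)) d s + 2 ≤ 2 ^ (t + (c + 5)) := by
    rw [hy, pow_add 2 t (c + 5)]
    have h6 : (2 : ℕ) ^ (c + 5) = 4 * 2 ^ (c + 3) := by rw [pow_add, pow_add]; ring
    have h7 : (8 : ℕ) ≤ 2 ^ (c + 3) := by
      calc (8 : ℕ) = 2 ^ 3 := by norm_num
        _ ≤ _ := Nat.pow_le_pow_right (by norm_num) (by omega)
    rw [h6]
    nlinarith
  calc (2 ^ aR d + s + yE (2 ^ (c + 3)) d s + 2) ^ c ≤ (2 ^ (t + (c + 5))) ^ c :=
        Nat.pow_le_pow_left h5 c
    _ = 2 ^ ((t + (c + 5)) * c) := by rw [← pow_mul]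
    _ ≤ 2 ^ yE (2 ^ (c + 3)) d s := by
        apply Nat.pow_le_pow_right (by norm_num)
        rw [hy]
        have h8 : (c + 1) * (c + 1) ≤ 2 * 2 ^ c * 2 := by
          have : ∀ c : ℕ, (c + 1) * (c + 1) ≤ 4 * 2 ^ c := by
            intro c
            induction c with
            | zero => norm_num
            | succ n ih =>
              rcases Nat.lt_or_ge n 2 with hn | hn
              · interval_cases n <;> norm_num
              · rw [pow_succ]; nlinarith
          linarith [this c]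
        have h9 : (2 : ℕ) ^ (c + 3) = 8 * 2 ^ c := by rw [pow_add]; ring
        have h10 : c + 1 ≤ 2 ^ c := Nat.lt_two_pow_self
        rw [h9]
        nlinarith

end Vale.Agent.P338.R3.H121
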